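import Vale.Agent.P014Y.G.Defs

/-!
# P014Y, Galois half: the cohomology of the Klein four group and Kummer theory
-/

namespace Vale.Agent.P014Y.G

open scoped IntermediateField

theorem h1s (G V : Type) [Group G] [AddCommGroup V] (a : G → V →+ V)
    (hmul : ∀ σ τ v, a (σ * τ) v = a σ (a τ v)) (hone : ∀ v, a 1 v = v) (T₁ T₂ : V)
    (htors : ∀ v : V, 2 • v = 0 ↔ v = 0 ∨ v = T₁ ∨ v = T₂ ∨ v = T₁ + T₂)
    (h1 : T₁ ≠ 0) (h2 : T₂ ≠ 0) (h12 : T₁ ≠ T₂) (hs : ∃ σ, a σ T₁ = T₂)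
    (hs' : ∃ σ, a σ T₁ = T₁ + T₂) (c : G → V) (hc : ∀ σ τ, c (σ * τ) = c σ + a σ (c τ))
    (h2c : ∀ σ, 2 • c σ = 0) (hN : ∀ σ, a σ T₁ = T₁ → a σ T₂ = T₂ → c σ = 0 ∨ c σ = T₁) :
    ∃ T : V, 2 • T = 0 ∧ ∀ σ, c σ = a σ T - T := by
  have t1 : 2 • T₁ = 0 := (htors _).2 (by simp)
  have t2 : 2 • T₂ = 0 := (htors _).2 (by simp)
  have t3 : 2 • (T₁ + T₂) = 0 := (htors _).2 (by simp)
  have e1 : T₁ + T₂ + T₁ = T₂ := by linear_combination (norm := abel) t1
  have e2 : T₁ + T₂ + T₂ = T₁ := by linear_combination (norm := abel) t2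
  have h3 : T₁ + T₂ ≠ 0 := fun h => h12 (by rw [← e1, h, zero_add])
  have hl : ∀ σ v, a σ⁻¹ (a σ v) = v := fun σ v => by rw [← hmul, inv_mul_cancel, hone]
  have hr : ∀ σ v, a σ (a σ⁻¹ v) = v := fun σ v => by rw [← hmul, mul_inv_cancel, hone]
  have inj : ∀ σ {v w}, a σ v = a σ w → v = w := fun σ v w h => by rw [← hl σ v, h, hl]
  have tor : ∀ σ {v}, 2 • v = 0 → 2 • a σ v = 0 := fun σ v h => by rw [← map_nsmul, h, map_zero]
  have im : ∀ σ {v}, 2 • v = 0 → v ≠ 0 → a σ v = T₁ ∨ a σ v = T₂ ∨ a σ v = T₁ + T₂ :=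
    fun σ v h h0 => ((htors _).1 (tor σ h)).resolve_left fun e => h0 (inj σ (by rw [e, map_zero]))
  have agree : ∀ σ τ, a σ T₁ = a τ T₁ → a σ T₂ = a τ T₂ → ∀ v, 2 • v = 0 → a σ v = a τ v := by
    intro σ τ p q v hv
    rcases (htors v).1 hv with rfl | rfl | rfl | rfl <;> simp [p, q]
  obtain ⟨r, r1, r2⟩ : ∃ r, a r T₁ = T₂ ∧ a r T₂ = T₁ + T₂ := by
    obtain ⟨s, hs⟩ := hs
    obtain ⟨s', hs'⟩ := hs'
    rcases im s t2 h2 with p | p | p
    · rcases im s' t2 h2 with q | q | q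
      · exact ⟨s' * s', by rw [hmul, hs', map_add, hs', q, e1], by rw [hmul, q, hs']⟩
      · exact ⟨s' * s, by rw [hmul, hs, q], by rw [hmul, p, hs']⟩
      · exact (h12 (inj s' (hs'.trans q.symm))).elim
    · exact (h12 (inj s (hs.trans p.symm))).elim
    · exact ⟨s, hs, p⟩
  have r3 : a r (T₁ + T₂) = T₁ := by rw [map_add, r1, r2, add_comm, e2]
  have key : ∀ c : G → V, (∀ σ τ, c (σ * τ) = c σ + a σ (c τ)) → c 1 = 0 := fun c hc => by
    simpa [hone] using hc 1 1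
  have hN0 : ∀ n, a n T₁ = T₁ → a n T₂ = T₂ → c n = 0 := by
    intro n n1 n2
    have hn : ∀ v, 2 • v = 0 → a n v = v := fun v hv =>
      (agree n 1 (by rw [n1, hone]) (by rw [n2, hone]) v hv).trans (hone v)
    have hn' : ∀ v, 2 • v = 0 → a (r * (n * r⁻¹)) v = v := fun v hv => by
      rw [hmul, hmul, hn _ (tor _ hv), hr]
    refine (hN n n1 n2).resolve_right fun e => ?_
    have h4 : c (r * (n * r⁻¹)) = T₂ := by
      have h5 := hc r r⁻¹
      rw [mul_inv_cancel, key c hc] at h5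
      rw [hc, hc, hn _ (h2c _), map_add, e, r1, add_left_comm, ← h5, add_zero]
    rcases hN _ (hn' _ t1) (hn' _ t2) with h5 | h5
    · exact h2 (h4.symm.trans h5)
    · exact h12 (h5.symm.trans h4)
  have hT : ∀ v, 2 • v = 0 → a r (a r v) - a r v = v := by
    intro v hv
    rcases (htors v).1 hv with h | h | h | h <;> rw [h]
    · simp
    · rw [r1, r2, add_sub_cancel_right]
    · rw [r2, r3, sub_eq_iff_eq_add, add_comm T₂, e2]
    · rw [r3, r1, sub_eq_iff_eq_add, e1]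
  have fp : ∀ v, 2 • v = 0 → a r v = v → v = 0 := fun v hv h => by
    rw [← hT v hv, h, h, sub_self]
  set T := a r (c r) with hTd
  have tT : 2 • T = 0 := tor r (h2c r)
  refine ⟨T, tT, ?_⟩
  set c' : G → V := fun σ => c σ - (a σ T - T) with hc'
  have k1 : ∀ σ τ, c' (σ * τ) = c' σ + a σ (c' τ) := fun σ τ => by
    simp only [hc', hc, hmul, map_sub]
    abel
  have k2 : ∀ σ, 2 • c' σ = 0 := fun σ => by
    simp only [hc', smul_sub, h2c, tor σ tT, tT, sub_self]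
  have k3 : c' r = 0 := sub_eq_zero.2 (hT _ (h2c r)).symm
  have k4 : ∀ k g, a k T₁ = a g T₁ → a k T₂ = a g T₂ → c' g = 0 → c' k = 0 := by
    intro k g p q h
    have hn : ∀ v, 2 • v = 0 → a (k * g⁻¹) v = v := fun v hv => by
      rw [hmul, agree k g p q _ (tor _ hv), hr]
    have h5 : c' (k * g⁻¹) = 0 := by
      simp only [hc', hN0 _ (hn _ t1) (hn _ t2), hn _ tT, sub_self]
    have h6 := k1 (k * g⁻¹) g
    rwa [inv_mul_cancel_right, h5, h, map_zero, add_zero] at h6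
  intro s
  have fk : ∀ v, 2 • v = 0 → a (s * r * s⁻¹) v = v → v = 0 := by
    intro v hv h
    rw [hmul, hmul] at h
    have h5 := fp _ (tor s⁻¹ hv) (inj s (h.trans (hr s v).symm))
    rw [← hr s v, h5, map_zero]
  have k5 : c' (s * r * s⁻¹) = 0 := by
    rcases im (s * r * s⁻¹) t1 h1 with p | p | p
    · exact (h1 (fk _ t1 p)).elim
    · rcases im (s * r * s⁻¹) t2 h2 with q | q | q
      · exact (h3 (fk _ t3 (by rw [map_add, p, q, add_comm]))).elim
      · exact (h2 (fk _ t2 q)).elim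
      · exact k4 _ r (p.trans r1.symm) (q.trans r2.symm) k3
    · rcases im (s * r * s⁻¹) t2 h2 with q | q | q
      · exact k4 _ (r * r) (by rw [p, hmul, r1, r2]) (by rw [q, hmul, r2, r3])
          (by rw [k1, k3, map_zero, add_zero])
      · exact (h2 (fk _ t2 q)).elim
      · exact (h12 (inj _ (p.trans q.symm))).elim
  have k6 := k1 (s * r * s⁻¹) s
  rw [inv_mul_cancel_right, k1, k3, map_zero, add_zero, k5, zero_add] at k6
  exact sub_eq_zero.1 (fk _ (k2 s) k6.symm)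

theorem h1 : StH1 := fun G V _ _ a hmul hone T₁ T₂ htors h1 h2 h12 hs hs' c hc h2c hN =>
  (h1s G V a hmul hone T₁ T₂ htors h1 h2 h12 hs hs' c hc h2c hN).imp fun _ h => h.2

theorem kum : StKum := by
  intro t S hS hfix h1 hmul
  have : IsAlgClosure ℚ (AlgebraicClosure ℚ) := AlgebraicClosure.instIsAlgClosure ℚ
  by_cases hall : ∀ σ : P014.GQ, σ t = t → σ ∈ S
  · exact ⟨1, one_ne_zero, by simp, fun σ _ => map_one σ, fun σ h h' => (h' (hall σ h)).elim⟩
  push Not at hall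
  obtain ⟨s, hs, hs'⟩ := hall
  have inv : ∀ σ : P014.GQ, σ t = t → σ⁻¹ t = t := fun σ h => σ.injective (by
    rw [h, ← AlgEquiv.mul_apply, mul_inv_cancel, AlgEquiv.one_apply])
  have mul : ∀ σ τ : P014.GQ, σ t = t → τ t = t → (σ * τ) t = t := fun σ τ h h' => by
    rw [AlgEquiv.mul_apply, h', h]
  have invS : ∀ σ : P014.GQ, σ t = t → (σ ∈ S ↔ σ⁻¹ ∈ S) := fun σ h =>
    (hmul σ σ⁻¹ h (inv σ h)).1 (by rwa [mul_inv_cancel])
  let H : ClosedSubgroup P014.GQ :=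
    { carrier := S
      mul_mem' := fun {σ τ} hσ hτ => (hmul σ τ (hfix σ hσ) (hfix τ hτ)).2 (iff_of_true hσ hτ)
      one_mem' := h1
      inv_mem' := fun {σ} hσ => (invS σ (hfix σ hσ)).1 hσ
      isClosed' := hS }
  have hH := InfiniteGalois.fixingSubgroup_fixedField H
  obtain ⟨x, hx, hsx⟩ : ∃ x, (∀ σ ∈ S, σ x = x) ∧ s x ≠ x := by
    by_contra h
    push Not at h
    refine hs' (show s ∈ H.1 from hH ▸ ?_)
    rw [IntermediateField.mem_fixingSubgroup_iff]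
    exact fun x hx => h x ((IntermediateField.mem_fixedField_iff _ _).1 hx)
  have hi : s⁻¹ ∉ S := fun h => hs' ((invS s hs).2 h)
  have out : ∀ σ : P014.GQ, σ t = t → σ ∉ S → σ x = s x := fun σ h h' => by
    have := hx _ ((hmul s⁻¹ σ (inv s hs) h).2 (iff_of_false hi h'))
    rw [← congrArg s this, ← AlgEquiv.mul_apply, mul_inv_cancel_left]
  have k1 : ∀ σ ∈ S, σ (x - s x) = x - s x := fun σ h => by
    rw [map_sub, hx σ h, ← AlgEquiv.mul_apply, out (σ * s) (mul _ _ (hfix σ h) hs) fun h' =>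
      hs' (((hmul σ s (hfix σ h) hs).1 h').1 h)]
  have k2 : ∀ σ : P014.GQ, σ t = t → σ ∉ S → σ (x - s x) = -(x - s x) := fun σ h h' => by
    rw [map_sub, out σ h h', ← AlgEquiv.mul_apply σ s,
      hx _ ((hmul σ s h hs).2 (iff_of_false h' hs')), neg_sub]
  refine ⟨x - s x, sub_ne_zero.2 hsx.symm, ?_, k1, k2⟩
  rw [← InfiniteGalois.fixedField_fixingSubgroup ℚ⟮t⟯, IntermediateField.mem_fixedField_iff]
  intro σ hσ
  have ht : σ t = t := (IntermediateField.mem_fixingSubgroup_iff _ _).1 hσ t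
    (IntermediateField.mem_adjoin_simple_self ℚ t)
  rw [map_pow]
  by_cases h : σ ∈ S
  · rw [k1 σ h]
  · rw [k2 σ ht h, neg_sq]

end Vale.Agent.P014Y.G
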