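import Vale.Agent.P014.Defs

/-!
# P014Y, Galois half: definitions and the statements of the rows of the 2-descent

The curve is `y² + y = x³ - D x² - 10 D² x - (79 D³ + 1)/4`. With `X = 4x`, `Y = 8y + 4` it is
`Y² = X³ - 4 D X² - 160 D² X - 1264 D³`; the roots of the cubic are `D θ`, `θ = 8t² - 14t`,
`t³ - 2t² + 2 = 0` (the cubic field of discriminant `-44`).
-/

namespace Vale.Agent.P014Y.G

open WeierstrassCurve NumberField
open scoped IntermediateField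

/-- the quadratic twist of `X_0(11)` by `D` -/
noncomputable def tw (D : ℤ) : WeierstrassCurve ℚ :=
  ⟨0, -D, 1, -10 * D ^ 2, -(79 * D ^ 3 + 1) / 4⟩

/-- `t` is a root of `t³ - 2t² + 2` -/
def IsR {L : Type*} [CommRing L] (t : L) : Prop := t ^ 3 - 2 * t ^ 2 + 2 = 0

/-- `θ = 8t² - 14t` -/
def th {L : Type*} [CommRing L] (t : L) : L := 8 * t ^ 2 - 14 * t

/-- the cubic `X³ - 4 D X² - 160 D² X - 1264 D³` -/
def gD {L : Type*} [CommRing L] (D : ℤ) (X : L) : L :=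
  X ^ 3 - 4 * D * X ^ 2 - 160 * (D : L) ^ 2 * X - 1264 * (D : L) ^ 3

/-- the derivative of the cubic at its root `D θ` -/
def dl {L : Type*} [CommRing L] (D : ℤ) (t : L) : L :=
  (D : L) ^ 2 * (3 * th t ^ 2 - 8 * th t - 160)

/-- the 2-division cubic of `X_0(11)` has no root mod `q` -/
def NoRoot (q : ℕ) : Prop := ∀ x : ZMod q, 4 * x ^ 3 - 4 * x ^ 2 - 40 * x - 79 ≠ 0

/-- the hypotheses on `M` -/
structure Hyp (M : ℕ) : Prop where
  sqf : Squarefree M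
  mod4 : M % 4 = 1
  nr : ∀ q : ℕ, q.Prime → q ∣ M → NoRoot q

/-- `α` lies in the image of the local descent map at `p` for the embedding given by `t` -/
def LocIm (p : ℕ) [Fact p.Prime] (D : ℤ) (t α : PadicAlgCl p) : Prop :=
  ∃ w ∈ ℚ_[p]⟮t⟯, w ≠ 0 ∧ (α * w ^ 2 = 1 ∨ ∃ X Y : ℚ_[p], Y ^ 2 = gD D X ∧
    (α * w ^ 2 = algebraMap ℚ_[p] (PadicAlgCl p) X - D * th t ∨
      (algebraMap ℚ_[p] (PadicAlgCl p) X = D * th t ∧ α * w ^ 2 = dl D t)))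

/-- the norm of `z` is the square of the norm of an element of `ℚ(t)` -/
def EvN {p : ℕ} [Fact p.Prime] (t z : PadicAlgCl p) : Prop :=
  ∃ a b c : ℚ, ‖z‖ = ‖(a : PadicAlgCl p) + b * t + c * t ^ 2‖ ^ 2

/-- the local valuations of the descent map at `p` are even -/
def ValAt (p : ℕ) [Fact p.Prime] (D : ℤ) : Prop :=
  ∀ t : PadicAlgCl p, IsR t → ∀ X Y : ℚ_[p], Y ^ 2 = gD D X →
    (algebraMap ℚ_[p] (PadicAlgCl p) X ≠ D * th t →
      EvN t (algebraMap ℚ_[p] (PadicAlgCl p) X - D * th t)) ∧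
    (algebraMap ℚ_[p] (PadicAlgCl p) X = D * th t → EvN t (dl D t))

theorem gD_factor {L : Type*} [CommRing L] (D : ℤ) {t : L} (ht : IsR t) (X : L) :
    gD D X = (X - D * th t) *
      ((X - D * th t) ^ 2 + (X - D * th t) * (D * (3 * th t - 4)) + dl D t) := by
  unfold IsR at ht
  unfold gD dl th
  linear_combination (D : L) ^ 3 * (512 * t ^ 3 - 1664 * t ^ 2 + 1120 * t - 632) * ht

/-- every element of `K(t)` is a polynomial of degree at most two in `t` -/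
theorem el_of_mem {K L : Type*} [Field K] [Field L] [Algebra K L] {t : L} (ht : IsR t) {w : L}
    (hw : w ∈ K⟮t⟯) :
    ∃ a b c : K, w = algebraMap K L a + algebraMap K L b * t + algebraMap K L c * t ^ 2 := by
  have hi : IsIntegral K t := by
    refine ⟨Polynomial.X ^ 3 - 2 * Polynomial.X ^ 2 + 2, by monicity!, ?_⟩
    simpa [IsR, Polynomial.eval₂_add, Polynomial.eval₂_sub, Polynomial.eval₂_mul] using ht
  have h1 : w ∈ Algebra.adjoin K ({t} : Set L) := by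
    rw [← IntermediateField.adjoin_simple_toSubalgebra_of_isAlgebraic hi.isAlgebraic]
    exact hw
  unfold IsR at ht
  clear hw
  induction h1 using Algebra.adjoin_induction with
  | mem x hx =>
    rw [Set.mem_singleton_iff] at hx
    exact ⟨0, 1, 0, by simp [hx]⟩
  | algebraMap r => exact ⟨r, 0, 0, by simp⟩
  | add x y _ _ hx hy =>
    obtain ⟨a, b, c, rfl⟩ := hx
    obtain ⟨a', b', c', rfl⟩ := hy
    exact ⟨a + a', b + b', c + c', by simp only [map_add]; ring⟩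
  | mul x y _ _ hx hy =>
    obtain ⟨a, b, c, rfl⟩ := hx
    obtain ⟨a', b', c', rfl⟩ := hy
    refine ⟨a * a' - 2 * (b * c' + c * b') - 4 * (c * c'), a * b' + b * a' - 2 * (c * c'),
      a * c' + b * b' + c * a' + 2 * (b * c' + c * b') + 4 * (c * c'), ?_⟩
    simp only [map_add, map_sub, map_mul, map_ofNat]
    linear_combination (algebraMap K L b * algebraMap K L c' + algebraMap K L c * algebraMap K L b'
      + algebraMap K L c * algebraMap K L c' * (t + 2)) * ht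

/-! ### the rows -/

/-- row VAL2 -/
def StVal2 : Prop := ∀ D : ℤ, D % 2 = 1 → ValAt 2 D

/-- row VAL11 -/
def StVal11 : Prop := ∀ [Fact (Nat.Prime 11)] (M : ℕ), ¬ 11 ∣ M → IsSquare ((M : ℤ) : ZMod 11) →
  ValAt 11 (-11 * M)

/-- row VALM -/
def StValM : Prop := ∀ (p : ℕ) [Fact p.Prime] (D : ℤ), NoRoot p → (p : ℤ) ∣ D →
  ¬ (p : ℤ) ^ 2 ∣ D → ValAt p D

/-- row VALG -/
def StValG : Prop := ∀ (p : ℕ) [Fact p.Prime] (D : ℤ), p ≠ 2 → p ≠ 11 → ¬ (p : ℤ) ∣ D → ValAt p D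

/-- row DENS: the norms of `ℚ_p(t)` are norms of `ℚ(t)` -/
def StDens : Prop := ∀ (p : ℕ) [Fact p.Prime] (t : PadicAlgCl p), IsR t → ∀ w ∈ ℚ_[p]⟮t⟯,
  ∃ a b c : ℚ, ‖w‖ = ‖(a : PadicAlgCl p) + b * t + c * t ^ 2‖

/-- row LOC2: the three nontrivial unit classes are not in the local image at 2 -/
def StLoc2 : Prop := ∀ D : ℤ, D % 4 = 1 → ∀ t : PadicAlgCl 2, IsR t →
  ¬ LocIm 2 D t (-1) ∧ ¬ LocIm 2 D t (1 - t) ∧ ¬ LocIm 2 D t (-(1 - t))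

/-- row DISC -/
def StDisc : Prop := ∀ (F : Type) [Field F] [NumberField F] (t : F), IsR t →
  Module.finrank ℚ F = 3 → -44 ≤ discr F ∧ discr F < 0

/-- row FLD: class number one and unit rank one -/
def StFld : Prop := ∀ (F : Type) [Field F] [NumberField F], Module.finrank ℚ F = 3 →
  -44 ≤ discr F → discr F < 0 →
  IsPrincipalIdealRing (𝓞 F) ∧ ∃ η : (𝓞 F)ˣ, ∀ u : (𝓞 F)ˣ, ∃ n : ℤ, u = η ^ n ∨ u = -η ^ n

/-- row EVEN -/
def StEven : Prop := ∀ (F : Type) [Field F] [NumberField F], IsPrincipalIdealRing (𝓞 F) →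
  ∀ α : F, α ≠ 0 →
  (∀ (p : ℕ) [Fact p.Prime] (φ : F →+* PadicAlgCl p), ∃ u v : F, u ≠ 0 ∧
    ‖φ α‖ * ‖φ u‖ ^ 2 = ‖φ v‖ ^ 2) →
  ∃ (e : (𝓞 F)ˣ) (γ : F), γ ≠ 0 ∧ α = ((e : 𝓞 F) : F) * γ ^ 2

/-- row SQ11 -/
def StSq11 : Prop := ∀ M : ℕ, Hyp M → ¬ 11 ∣ M ∧ IsSquare ((M : ℤ) : ZMod 11)

/-- row H1: `H¹` of a transitive action on the Klein four group -/
def StH1 : Prop := ∀ (G V : Type) [Group G] [AddCommGroup V] (a : G → V →+ V),
  (∀ σ τ v, a (σ * τ) v = a σ (a τ v)) → (∀ v, a 1 v = v) → ∀ T₁ T₂ : V,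
  (∀ v : V, 2 • v = 0 ↔ v = 0 ∨ v = T₁ ∨ v = T₂ ∨ v = T₁ + T₂) →
  T₁ ≠ 0 → T₂ ≠ 0 → T₁ ≠ T₂ → (∃ σ, a σ T₁ = T₂) → (∃ σ, a σ T₁ = T₁ + T₂) →
  ∀ c : G → V, (∀ σ τ, c (σ * τ) = c σ + a σ (c τ)) → (∀ σ, 2 • c σ = 0) →
  (∀ σ, a σ T₁ = T₁ → a σ T₂ = T₂ → c σ = 0 ∨ c σ = T₁) → ∃ T : V, ∀ σ, c σ = a σ T - T

/-- row KUM: Kummer theory for a closed subgroup of index at most two in a stabiliser -/
def StKum : Prop := ∀ (t : AlgebraicClosure ℚ) (S : Set P014.GQ), IsClosed S →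
  (∀ σ ∈ S, σ t = t) → 1 ∈ S →
  (∀ σ τ : P014.GQ, σ t = t → τ t = t → (σ * τ ∈ S ↔ (σ ∈ S ↔ τ ∈ S))) →
  ∃ β : AlgebraicClosure ℚ, β ≠ 0 ∧ β ^ 2 ∈ ℚ⟮t⟯ ∧ (∀ σ ∈ S, σ β = β) ∧
    ∀ σ : P014.GQ, σ t = t → σ ∉ S → σ β = -β

end Vale.Agent.P014Y.G
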