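import Vale.Agent.P014Y.Sk

/-!
# P014Y: division by two
-/

open WeierstrassCurve Polynomial
open scoped Classical
open Vale.Agent.P014Z (tw11)

set_option linter.all false

noncomputable section

namespace Vale.Agent.P014Y.G

namespace DivA

variable {K : Type} [Field K]

theorem quartic [IsAlgClosed K] (a b c d : K) :
    ∃ x : K, x ^ 4 + a * x ^ 3 + b * x ^ 2 + c * x + d = 0 := by
  have h : (X ^ 4 + C a * X ^ 3 + C b * X ^ 2 + C c * X + C d : K[X]).degree = 4 := by
    compute_degree!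
  obtain ⟨x, hx⟩ := IsAlgClosed.exists_root _ (h.trans_ne (by decide))
  exact ⟨x, by simpa using hx⟩

theorem half [CharZero K] [IsAlgClosed K] (W : Affine K) (D : K) (hD : D ≠ 0) (h1 : W.a₁ = 0)
    (h2 : W.a₂ = -D) (h3 : W.a₃ = 1) (h4 : W.a₄ = -10 * D ^ 2)
    (h6 : W.a₆ = (-79 * D ^ 3 - 1) / 4) (R : W.Point) : ∃ P : W.Point, P + P = R := by
  rcases R with _ | ⟨x₀, y₀, h₀⟩
  · exact ⟨0, add_zero _⟩
  obtain ⟨x, hx⟩ := quartic (-4 * x₀) (20 * D ^ 2 + 4 * D * x₀) (158 * D ^ 3 + 40 * D ^ 2 * x₀)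
    (21 * D ^ 4 + 79 * D ^ 3 * x₀)
  have key : pd D x ^ 2 + (D - 2 * x - x₀) * ps D x = 0 := by
    unfold pd ps; linear_combination hx
  have hps : ps D x ≠ 0 := fun h => by
    rw [h, mul_zero, add_zero] at key
    have hp : pd D x = 0 := pow_eq_zero_iff two_ne_zero |>.1 key
    unfold ps at h
    unfold pd at hp
    have r : D ^ 2 * (248 * x + 751 * D) = 0 := by linear_combination (12 * x - 4 * D) * hp - 9 * h
    have r' := (mul_eq_zero.1 r).resolve_left (pow_ne_zero 2 hD)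
    have r2 : (1449459 : K) * D ^ 2 = 0 := by
      linear_combination 248 ^ 2 * hp - (3 * (248 * x) - 2749 * D) * r'
    exact mul_ne_zero (by norm_num) (pow_ne_zero 2 hD) r2
  obtain ⟨s, hs⟩ := IsAlgClosed.exists_pow_nat_eq (ps D x) two_pos
  have hs0 : s ≠ 0 := fun h => hps (by rw [← hs, h]; ring)
  have ny : (s - 1) / 2 - W.negY x ((s - 1) / 2) = s := by
    rw [Affine.negY, h1, h3]; ring
  have hy : (s - 1) / 2 ≠ W.negY x ((s - 1) / 2) := sub_ne_zero.1 (ny.trans_ne hs0)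
  have hn : W.Nonsingular x ((s - 1) / 2) := by
    refine (W.nonsingular_iff _ _).2 ⟨(W.equation_iff _ _).2 ?_, Or.inr hy⟩
    rw [h1, h2, h3, h4, h6]
    unfold ps at hs
    linear_combination (1 / 4 : K) * hs
  have hX : W.addX x x (W.slope x x ((s - 1) / 2) ((s - 1) / 2)) = x₀ := by
    rw [Affine.slope_of_Y_ne rfl hy, ny, Affine.addX, h1, h2, h4]
    rw [← hs] at key
    unfold pd at key
    field_simp
    linear_combination 4 * key
  rcases (Affine.Point.X_eq_iff (h₁ := Affine.nonsingular_add hn hn fun hxy => hy hxy.right)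
    (h₂ := h₀)).1 hX with h | h
  · exact ⟨Affine.Point.some _ _ hn, (Affine.Point.add_self_of_Y_ne hy).trans h⟩
  · refine ⟨-Affine.Point.some _ _ hn, ?_⟩
    rw [← neg_add, Affine.Point.add_self_of_Y_ne hy, h, neg_neg]

end DivA

theorem hdiv : DIV := by
  intro D K _ _ _ hD R
  have : CharZero K := algebraRat.charZero K
  refine DivA.half _ (D : K) (by exact_mod_cast hD) ?_ ?_ ?_ ?_ ?_ R <;> simp [tw11]

end Vale.Agent.P014Y.G
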