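import Vale.Agent.P014Y.G.Defs

/-!
# P014Y, Galois half: density of the rational points and even valuations
-/

namespace Vale.Agent.P014Y.G

open NumberField
open scoped IntermediateField

theorem dens : StDens := by
  intro p _ t ht w hw
  obtain ⟨a, b, c, hw⟩ := el_of_mem ht hw
  by_cases h0 : w = 0
  · exact ⟨0, 0, 0, by simp [h0]⟩
  let f : ℚ_[p] × ℚ_[p] × ℚ_[p] → PadicAlgCl p := fun z => algebraMap ℚ_[p] _ z.1 +
    algebraMap ℚ_[p] _ z.2.1 * t + algebraMap ℚ_[p] _ z.2.2 * t ^ 2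
  have hc : Continuous (algebraMap ℚ_[p] (PadicAlgCl p)) := continuous_algebraMap _ _
  have hf : Continuous f := by fun_prop
  have hd := (Padic.denseRange_ratCast p).prodMap
    ((Padic.denseRange_ratCast p).prodMap (Padic.denseRange_ratCast p))
  obtain ⟨⟨a', b', c'⟩, h⟩ := hd.exists_mem_open (Metric.isOpen_ball.preimage hf)
    (⟨(a, b, c), by
      change f (a, b, c) ∈ Metric.ball w ‖w‖
      rw [show f (a, b, c) = w from hw.symm]
      exact Metric.mem_ball_self (norm_pos_iff.2 h0)⟩ :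
      (f ⁻¹' Metric.ball w ‖w‖).Nonempty)
  refine ⟨a', b', c', ?_⟩
  have h1 : ‖((a' : PadicAlgCl p) + b' * t + c' * t ^ 2) - w‖ < ‖w‖ := by
    simpa [f, dist_eq_norm] using h
  have h2 := IsUltrametricDist.norm_add_eq_max_of_norm_ne_norm h1.ne
  rw [sub_add_cancel, max_eq_right h1.le] at h2
  exact h2.symm

namespace EvenH

variable {F : Type} [Field F] [NumberField F] {p : ℕ} [Fact p.Prime]

omit [NumberField F] in
theorem le_one (φ : F →+* PadicAlgCl p) (x : 𝓞 F) : ‖φ x‖ ≤ 1 := by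
  have h1 : IsIntegral ℤ (φ x) := map_isIntegral_int φ x.isIntegral_coe
  have h2 : IsIntegral (NormedField.valuation (K := PadicAlgCl p)).integer (φ x) := h1.tower_top
  have h3 := (Valuation.integer.integers _).mem_of_integral h2
  rw [Valuation.mem_integer_iff] at h3
  exact_mod_cast h3

omit [NumberField F] in
theorem eq_one (φ : F →+* PadicAlgCl p) {π x : 𝓞 F} (h : ‖φ π‖ < 1) (hx : IsCoprime π x) :
    ‖φ x‖ = 1 := by
  refine le_antisymm (le_one φ x) (not_lt.1 fun h1 => ?_)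
  obtain ⟨s, t, hst⟩ := hx
  have h2 : φ s * φ π + φ t * φ x = 1 := by
    have := congrArg (fun z : 𝓞 F => φ z) hst
    simpa using this
  have h3 := IsUltrametricDist.norm_add_le_max (φ s * φ π) (φ t * φ x)
  rw [h2, norm_one, norm_mul, norm_mul] at h3
  exact absurd h3 (not_le.2 (max_lt
    (lt_of_le_of_lt (mul_le_of_le_one_left (norm_nonneg _) (le_one φ s)) h)
    (lt_of_le_of_lt (mul_le_of_le_one_left (norm_nonneg _) (le_one φ t)) h1)))

omit [NumberField F] in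
theorem eq_pow [IsPrincipalIdealRing (𝓞 F)] (φ : F →+* PadicAlgCl p) {π x : 𝓞 F}
    (hπ : Irreducible π) (h : ‖φ π‖ < 1) (hx : x ≠ 0) : ∃ k : ℕ, ‖φ x‖ = ‖φ π‖ ^ k := by
  obtain ⟨k, y, hy, rfl⟩ := WfDvdMonoid.max_power_factor hx hπ
  refine ⟨k, ?_⟩
  have h1 := eq_one φ h (hπ.coprime_iff_not_dvd.2 hy)
  simp [h1]

theorem exists_emb {π : 𝓞 F} (hπ : ¬ IsUnit π) :
    ∃ (p : ℕ) (_ : Fact p.Prime) (φ : F →+* PadicAlgCl p), ‖φ π‖ < 1 := by
  have h1 : (Algebra.norm ℤ π).natAbs ≠ 1 := fun h => by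
    refine hπ (NumberField.isUnit_iff_norm.2 ?_)
    rw [RingOfIntegers.coe_norm, ← Algebra.coe_norm_int, ← Int.cast_abs, Int.abs_eq_natAbs, h]
    simp
  obtain ⟨p, hp, hd⟩ := Nat.exists_prime_and_dvd h1
  have : Fact p.Prime := ⟨hp⟩
  have h2 : ‖((Algebra.norm ℤ π : ℤ) : PadicAlgCl p)‖ < 1 := by
    rw [← map_intCast (algebraMap ℚ_[p] (PadicAlgCl p))]
    refine lt_of_eq_of_lt (PadicAlgCl.norm_extends p _) ?_
    exact Padic.norm_intCast_lt_one_iff.2 (Int.natCast_dvd.2 hd)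
  have h3 := Algebra.norm_eq_prod_embeddings ℚ (PadicAlgCl p) (π : F)
  rw [← Algebra.coe_norm_int, map_intCast] at h3
  rw [h3, norm_prod] at h2
  by_contra h4
  push Not at h4
  exact absurd h2 (not_lt.2 (Finset.one_le_prod fun σ _ => h4 p this σ.toRingHom))

theorem exists_sqf {R : Type} [CommRing R] [IsDomain R] [WfDvdMonoid R] (z : R) :
    z ≠ 0 → ∃ b a : R, b ^ 2 * a = z ∧ Squarefree a := by
  induction z using (wellFounded_dvdNotUnit (α := R)).induction with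
  | _ z ih =>
    intro hz
    by_cases h : Squarefree z
    · exact ⟨1, z, by simp, h⟩
    unfold Squarefree at h
    push Not at h
    obtain ⟨x, ⟨w, rfl⟩, hx⟩ := h
    have hw : w ≠ 0 := right_ne_zero_of_mul hz
    obtain ⟨b, a, rfl, ha⟩ := ih w ⟨hw, x * x, fun hu => hx (isUnit_of_mul_isUnit_left hu),
      mul_comm _ _⟩ hw
    exact ⟨x * b, a, by ring, ha⟩

end EvenH

open EvenH in
theorem even : StEven := by
  intro F _ _ _ α hα h
  obtain ⟨x, y, hy, rfl⟩ := IsFractionRing.div_surjective (A := 𝓞 F) α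
  have hy0 : y ≠ 0 := nonZeroDivisors.ne_zero hy
  have hx0 : x ≠ 0 := by
    rintro rfl
    simp at hα
  obtain ⟨b, a, hab, ha⟩ := exists_sqf _ (mul_ne_zero hx0 hy0)
  have hb0 : b ≠ 0 := by
    rintro rfl
    exact mul_ne_zero hx0 hy0 (by rw [← hab]; simp)
  have hyF : (y : F) ≠ 0 := RingOfIntegers.coe_ne_zero_iff.2 hy0
  have hbF : (b : F) ≠ 0 := RingOfIntegers.coe_ne_zero_iff.2 hb0
  have he : algebraMap (𝓞 F) F x / algebraMap (𝓞 F) F y = (a : F) * ((b : F) / y) ^ 2 := by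
    have h1 : (b : F) ^ 2 * a = x * y := by exact_mod_cast congrArg (fun z : 𝓞 F => (z : F)) hab
    change (x : F) / y = _
    field_simp
    linear_combination -h1
  by_cases hu : IsUnit a
  · obtain ⟨e, rfl⟩ := hu
    exact ⟨e, b / y, div_ne_zero hbF hyF, he⟩
  exfalso
  obtain ⟨π, hπ, a', rfl⟩ := WfDvdMonoid.exists_irreducible_factor hu ha.ne_zero
  obtain ⟨p, _, φ, hφ⟩ := exists_emb hπ.not_isUnit
  have ha' : ‖φ a'‖ = 1 := eq_one φ hφ (hπ.coprime_iff_not_dvd.2 fun hd =>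
    hπ.not_isUnit (ha π (mul_dvd_mul_left π hd)))
  have hpos : ∀ {z : 𝓞 F}, z ≠ 0 → 0 < ‖φ z‖ := fun hz =>
    norm_pos_iff.2 ((map_ne_zero φ).2 (RingOfIntegers.coe_ne_zero_iff.2 hz))
  obtain ⟨u, v, hu0, huv⟩ := h p φ
  have hv0 : v ≠ 0 := by
    rintro rfl
    have h1 : 0 < ‖φ u‖ := norm_pos_iff.2 ((map_ne_zero φ).2 hu0)
    have h2 := norm_pos_iff.2 ((map_ne_zero φ).2 hα)
    have h3 := mul_pos h2 (pow_pos h1 2)
    rw [huv] at h3
    simp at h3
  have hz : ∀ z : F, z ≠ 0 → ∃ k : ℤ, ‖φ z‖ = ‖φ π‖ ^ k := fun z hz => by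
    obtain ⟨r, s, hs, rfl⟩ := IsFractionRing.div_surjective (A := 𝓞 F) z
    have hr0 : r ≠ 0 := by
      rintro rfl
      simp at hz
    obtain ⟨k, hk⟩ := eq_pow φ hπ hφ hr0
    obtain ⟨l, hl⟩ := eq_pow φ hπ hφ (nonZeroDivisors.ne_zero hs)
    refine ⟨k - l, ?_⟩
    rw [map_div₀, norm_div, zpow_sub₀ (hpos hπ.ne_zero).ne', zpow_natCast, zpow_natCast, ← hk, ← hl]
  obtain ⟨k, hk⟩ := hz u hu0
  obtain ⟨l, hl⟩ := hz v hv0
  obtain ⟨m, hm⟩ := hz _ (div_ne_zero hbF hyF)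
  have h5 : ‖φ ((π * a' : 𝓞 F) : F)‖ = ‖φ π‖ := by simp [ha']
  rw [he, map_mul, map_pow, norm_mul, norm_pow, h5, hk, hl, hm] at huv
  have h0 := hpos hπ.ne_zero
  have h6 : ‖φ π‖ ^ (1 + m * 2 + k * 2) = ‖φ π‖ ^ (l * 2) := by
    rw [zpow_add₀ h0.ne', zpow_add₀ h0.ne', zpow_mul, zpow_mul, zpow_mul, zpow_one]
    exact_mod_cast huv
  have h7 := zpow_right_injective₀ h0 hφ.ne h6
  omega

end Vale.Agent.P014Y.G
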