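import Vale.Agent.P014Y.G.Defs

/-!
# P014Y, Galois half: the cubic field of discriminant `-44`
-/

namespace Vale.Agent.P014Y.G

open NumberField NumberField.InfinitePlace Polynomial Module

theorem fld_irr : Irreducible (X ^ 3 - 2 * X ^ 2 + 2 : ℚ[X]) := by
  have hd : (X ^ 3 - 2 * X ^ 2 + 2 : ℚ[X]).natDegree = 3 := by compute_degree!
  refine irreducible_of_degree_le_three_of_not_isRoot (by simp [hd]) fun x hx => ?_
  have hm : (X ^ 3 - 2 * X ^ 2 + 2 : ℤ[X]).Monic := by monicity!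
  have hx' : x ^ 3 - 2 * x ^ 2 + 2 = 0 := by simpa using hx
  obtain ⟨k, rfl⟩ := isInteger_of_is_root_of_monic hm (r := x) (by simpa [map_ofNat] using hx')
  have h1 : k ^ 3 - 2 * k ^ 2 + 2 = 0 := by
    have : ((k ^ 3 - 2 * k ^ 2 + 2 : ℤ) : ℚ) = 0 := by simpa using hx'
    exact_mod_cast this
  have h2 : ((k : ZMod 3)) ^ 3 - 2 * (k : ZMod 3) ^ 2 + 2 = 0 := by
    simpa using congrArg (Int.cast : ℤ → ZMod 3) h1
  generalize (k : ZMod 3) = z at h2
  revert z
  decide

theorem fld_li {F : Type} [Field F] [NumberField F] {t : F} (ht : IsR t) :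
    LinearIndependent ℚ fun i : Fin 3 => t ^ (i : ℕ) := by
  have hm : (X ^ 3 - 2 * X ^ 2 + 2 : ℚ[X]).Monic := by monicity!
  have h1 : minpoly ℚ t = X ^ 3 - 2 * X ^ 2 + 2 :=
    (minpoly.eq_of_irreducible_of_monic fld_irr (by simpa [IsR, map_ofNat] using ht) hm).symm
  have hd : (minpoly ℚ t).natDegree = 3 := by rw [h1]; compute_degree!
  have := linearIndependent_pow (K := ℚ) t
  rwa [hd] at this

theorem fld_discr {F : Type} [Field F] [NumberField F] {t : F} (ht : IsR t)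
    (h3 : finrank ℚ F = 3) : Algebra.discr ℚ (fun i : Fin 3 => t ^ (i : ℕ)) = -44 := by
  obtain ⟨b, hb⟩ : ∃ b : Basis (Fin 3) ℚ F, ∀ i, b i = t ^ (i : ℕ) :=
    ⟨basisOfLinearIndependentOfCardEqFinrank (fld_li ht) (by simp [h3]), fun i => by simp⟩
  have b0 : (1 : F) = b 0 := by simp [hb]
  have b1 : t = b 1 := by simp [hb]
  have b2 : t ^ 2 = b 2 := by simp [hb]
  have e3 : t ^ 3 = (2 : ℚ) • b 2 - (2 : ℚ) • b 0 := by
    rw [← b0, ← b2, Algebra.smul_def, Algebra.smul_def, map_ofNat]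
    linear_combination (id ht : t ^ 3 - 2 * t ^ 2 + 2 = 0)
  have e4 : t ^ 4 = (4 : ℚ) • b 2 - (2 : ℚ) • b 1 - (4 : ℚ) • b 0 := by
    rw [← b0, ← b1, ← b2, Algebra.smul_def, Algebra.smul_def, Algebra.smul_def, map_ofNat,
      map_ofNat]
    linear_combination (t + 2) * (id ht : t ^ 3 - 2 * t ^ 2 + 2 = 0)
  have tr : ∀ x : F, Algebra.trace ℚ F x =
      b.repr x 0 + b.repr (x * t) 1 + b.repr (x * t ^ 2) 2 := fun x => by
    rw [Algebra.trace_eq_matrix_trace b, Matrix.trace_fin_three]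
    simp only [Algebra.leftMulMatrix_eq_repr_mul, ← b0, ← b1, ← b2, mul_one]
  have t0 : Algebra.trace ℚ F (b 0) = 3 := by
    rw [← b0, tr, one_mul, one_mul, b2]
    conv_lhs => rw [b0, b1]
    simp
    norm_num
  have t1 : Algebra.trace ℚ F (b 1) = 2 := by
    rw [← b1, tr, ← pow_two, ← pow_succ', e3, b2]
    conv_lhs => rw [b1]
    simp
  have t2 : Algebra.trace ℚ F (b 2) = 4 := by
    rw [← b2, tr, ← pow_succ, ← pow_add, e3, e4, b2]
    simp
  have s0 : Algebra.trace ℚ F 1 = 3 := b0 ▸ t0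
  have s1 : Algebra.trace ℚ F t = 2 := by rw [← t1, ← b1]
  have s2 : Algebra.trace ℚ F (t ^ 2) = 4 := b2 ▸ t2
  have s3 : Algebra.trace ℚ F (t ^ 3) = 2 := by
    rw [e3, map_sub, map_smul, map_smul, t0, t2]; norm_num
  have s4 : Algebra.trace ℚ F (t ^ 4) = 0 := by
    rw [e4, map_sub, map_sub, map_smul, map_smul, map_smul, t0, t1, t2]; norm_num
  rw [Algebra.discr_def, Matrix.det_fin_three]
  simp only [Algebra.traceMatrix_apply, Algebra.traceForm_apply, ← pow_add]
  simp [s0, s1, s2, s3, s4]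
  norm_num

theorem disc : StDisc := by
  intro F _ _ t ht h3
  classical
  have hi : IsIntegral ℤ t := ⟨X ^ 3 - 2 * X ^ 2 + 2, by monicity!, by
    simpa [IsR, eval₂_add, eval₂_sub, eval₂_mul] using ht⟩
  obtain ⟨e⟩ : Nonempty (Fin 3 ≃ Free.ChooseBasisIndex ℤ (𝓞 F)) :=
    ⟨Fintype.equivOfCardEq (by
      rw [← finrank_eq_card_basis (integralBasis F), h3, Fintype.card_fin])⟩
  let T : 𝓞 F := ⟨t, hi⟩
  let Q : Matrix _ _ ℤ := (RingOfIntegers.basis F).toMatrix fun j => T ^ (e.symm j : ℕ)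
  have hQ : (integralBasis F).toMatrix ((fun i : Fin 3 => t ^ (i : ℕ)) ∘ e.symm) =
      (Int.castRingHom ℚ).mapMatrix Q := by
    ext i j
    have h := integralBasis_repr_apply F (T ^ (e.symm j : ℕ)) i
    rw [map_pow] at h
    exact h
  have hr : Algebra.discr ℚ ((fun i : Fin 3 => t ^ (i : ℕ)) ∘ e.symm) = -44 := by
    rw [← fld_discr ht h3, Algebra.discr_def, Algebra.discr_def,
      ← Matrix.det_submatrix_equiv_self e.symm]
    rfl
  have h := Algebra.discr_of_matrix_vecMul (A := ℚ) (integralBasis F)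
    ((integralBasis F).toMatrix ((fun i : Fin 3 => t ^ (i : ℕ)) ∘ e.symm))
  rw [Basis.toMatrix_map_vecMul, hr, hQ, ← RingHom.map_det, ← coe_discr] at h
  have h1 : (-44 : ℤ) = Q.det ^ 2 * discr F := by
    have : ((-44 : ℤ) : ℚ) = ((Q.det ^ 2 * discr F : ℤ) : ℚ) := by simpa using h
    exact_mod_cast this
  have h2 : Q.det ≠ 0 := fun h0 => by simp [h0] at h1
  have h4 : 1 ≤ Q.det ^ 2 := pow_pos (abs_pos.2 h2) 2 |>.trans_eq (sq_abs _)
  have h5 : discr F < 0 := by nlinarith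
  exact ⟨by nlinarith, h5⟩

theorem fld : StFld := by
  intro F _ _ h3 h44 h0
  have hr := card_add_two_mul_card_eq_rank F
  have hs := sign_discr F
  rw [Int.sign_eq_neg_one_of_neg h0] at hs
  have h2 : nrComplexPlaces F = 1 := by
    have : nrComplexPlaces F ≠ 0 := fun h => by simp [h] at hs
    omega
  refine ⟨RingOfIntegers.isPrincipalIdealRing_of_abs_discr_lt ?_, ?_⟩
  · rw [h2, h3, abs_of_neg h0]
    have h1 : ((-discr F : ℤ) : ℝ) ≤ 44 := by exact_mod_cast (by omega : -discr F ≤ 44)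
    refine h1.trans_lt ?_
    have := Real.pi_gt_d2
    norm_num [Nat.factorial]
    nlinarith
  · have hk : Units.rank F = 1 := by
      rw [Units.rank, card_eq_nrRealPlaces_add_nrComplexPlaces]
      omega
    have hu : Unique (Fin (Units.rank F)) := hk ▸ inferInstanceAs (Unique (Fin 1))
    refine ⟨Units.fundSystem F default, fun u => ?_⟩
    obtain ⟨⟨ζ, n⟩, h, -⟩ := Units.exist_unique_eq_mul_prod F u
    rw [Fintype.prod_unique] at h
    refine ⟨n default, (Units.torsion_eq_one_or_neg_one_of_odd_finrank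
      (by rw [h3]; decide) ζ).imp (fun h1 => ?_) fun h1 => ?_⟩ <;> simp [h, h1]

end Vale.Agent.P014Y.G
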