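import Vale.Agent.P014Y.G.Defs

/-!
# P014Y, Galois half: the local image at 2
-/

namespace Vale.Agent.P014Y.G

/-- the norm form of the cubic field -/
def Nf {L : Type*} [CommRing L] (a b c : L) : L :=
  a ^ 3 + 2 * a ^ 2 * b + 4 * a ^ 2 * c + 6 * a * b * c + 8 * a * c ^ 2 - 4 * b ^ 2 * c -
    2 * b ^ 3 + 4 * c ^ 3

theorem l2_inj {s : ℚ_[2]} (hs : s ≠ 0) (k : ℕ) {u v : ℤ_[2]}
    (h : s ^ k * algebraMap ℤ_[2] ℚ_[2] u = s ^ k * algebraMap ℤ_[2] ℚ_[2] v) : u = v :=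
  IsFractionRing.injective ℤ_[2] ℚ_[2] (mul_left_cancel₀ (pow_ne_zero k hs) h)

theorem l2_scale (x : Fin 4 → ℚ_[2]) (j : Fin 4) (hj : x j ≠ 0) :
    ∃ (s : ℚ_[2]) (y : Fin 4 → ℤ_[2]), s ≠ 0 ∧ (∀ i, x i = s * algebraMap ℤ_[2] ℚ_[2] (y i)) ∧
      (y 0 = 1 ∨ y 1 = 1 ∨ y 2 = 1 ∨ y 3 = 1) := by
  obtain ⟨k, hk⟩ := Finite.exists_max fun i => ‖x i‖
  have h0 : x k ≠ 0 := norm_pos_iff.1 ((norm_pos_iff.2 hj).trans_le (hk j))
  let y : Fin 4 → ℤ_[2] := fun i => ⟨x i / x k, by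
    rw [norm_div]; exact div_le_one_of_le₀ (hk i) (norm_nonneg _)⟩
  have h1 : y k = 1 := Subtype.ext (div_self h0)
  refine ⟨x k, y, h0, fun i => (mul_div_cancel₀ _ h0).symm, ?_⟩
  fin_cases k <;> simp_all

theorem l2_aniso {a b c : ℚ_[2]} (h : Nf a b c = 0) : a = 0 ∧ b = 0 ∧ c = 0 := by
  by_contra h0
  obtain ⟨j, hj⟩ : ∃ j, (![a, b, c, 0] : Fin 4 → ℚ_[2]) j ≠ 0 := by
    by_contra h1
    push Not at h1
    exact h0 ⟨h1 0, h1 1, h1 2⟩
  obtain ⟨s, y, hs, hy, h1⟩ := l2_scale _ j hj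
  have h3 : y 3 = 0 := by simpa [hs] using (hy 3).symm
  have e : Nf (y 0) (y 1) (y 2) = 0 := by
    have ha : a = s * algebraMap ℤ_[2] ℚ_[2] (y 0) := hy 0
    have hb : b = s * algebraMap ℤ_[2] ℚ_[2] (y 1) := hy 1
    have hc : c = s * algebraMap ℤ_[2] ℚ_[2] (y 2) := hy 2
    refine l2_inj hs 3 ?_
    rw [map_zero, mul_zero, ← h, ha, hb, hc]
    simp only [Nf, map_add, map_sub, map_mul, map_pow, map_ofNat]
    ring
  have key : ∀ u v w : ZMod (2 ^ 3), Nf u v w = 0 → ¬ (u = 1 ∨ v = 1 ∨ w = 1) := by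
    unfold Nf; decide +kernel
  refine key (PadicInt.toZModPow 3 (y 0)) (PadicInt.toZModPow 3 (y 1))
    (PadicInt.toZModPow 3 (y 2)) ?_ ?_
  · simpa [Nf, map_ofNat] using congrArg (PadicInt.toZModPow 3) e
  · rcases h1 with h1 | h1 | h1 | h1 <;> simp_all

theorem l2_sq {u v : ℚ_[2]} (h : u ^ 2 = -v ^ 2) : v = 0 := by
  by_contra h0
  obtain ⟨s, y, hs, hy, h1⟩ := l2_scale ![u, v, 0, 0] 1 h0
  have h2 : y 2 = 0 := by simpa [hs] using (hy 2).symm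
  have h3 : y 3 = 0 := by simpa [hs] using (hy 3).symm
  have e : y 0 ^ 2 + y 1 ^ 2 = 0 := by
    have ha : u = s * algebraMap ℤ_[2] ℚ_[2] (y 0) := hy 0
    have hb : v = s * algebraMap ℤ_[2] ℚ_[2] (y 1) := hy 1
    refine l2_inj hs 2 ?_
    rw [ha, hb] at h
    simp only [map_add, map_pow, map_zero]
    linear_combination h
  have key : ∀ u v : ZMod (2 ^ 2), u ^ 2 + v ^ 2 = 0 → ¬ (u = 1 ∨ v = 1) := by decide +kernel
  refine key (PadicInt.toZModPow 2 (y 0)) (PadicInt.toZModPow 2 (y 1)) ?_ ?_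
  · simpa using congrArg (PadicInt.toZModPow 2) e
  · rcases h1 with h1 | h1 | h1 | h1 <;> simp_all

theorem l2_ind {t : PadicAlgCl 2} (ht : IsR t) {a b c : ℚ_[2]}
    (h : algebraMap ℚ_[2] _ a + algebraMap ℚ_[2] _ b * t + algebraMap ℚ_[2] _ c * t ^ 2 = 0) :
    a = 0 ∧ b = 0 ∧ c = 0 := by
  refine l2_aniso ((algebraMap ℚ_[2] (PadicAlgCl 2)).injective ?_)
  unfold IsR at ht
  simp only [Nf, map_add, map_sub, map_mul, map_pow, map_ofNat, map_zero]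
  generalize algebraMap ℚ_[2] (PadicAlgCl 2) a = A at *
  generalize algebraMap ℚ_[2] (PadicAlgCl 2) b = B at *
  generalize algebraMap ℚ_[2] (PadicAlgCl 2) c = C at *
  linear_combination (A * (A + 2 * B + 4 * C) + 2 * C * (B + 2 * C) -
    (B * (A + 2 * B + 4 * C) + 2 * C ^ 2) * t + (B * (B + 2 * C) - A * C) * t ^ 2) * h -
    (C * (B * (B + 2 * C) - A * C) * (t + 2) + B * (B * (B + 2 * C) - A * C) -
      C * (B * (A + 2 * B + 4 * C) + 2 * C ^ 2)) * ht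

theorem l2_core {D : ℤ} (hD : D ≠ 0) {t α : PadicAlgCl 2} (ht : IsR t)
    (P Q R : ℚ_[2] → ℚ_[2] → ℚ_[2] → ℚ_[2])
    (hα : ∀ a b c, α * (algebraMap ℚ_[2] _ a + algebraMap ℚ_[2] _ b * t +
      algebraMap ℚ_[2] _ c * t ^ 2) ^ 2 = algebraMap ℚ_[2] _ (P a b c) +
        algebraMap ℚ_[2] _ (Q a b c) * t + algebraMap ℚ_[2] _ (R a b c) * t ^ 2)
    (h : LocIm 2 D t α) : ∃ a b c Y z : ℚ_[2], Nf a b c ≠ 0 ∧
      Y ^ 2 = Nf (P a b c) (Q a b c) (R a b c) ∧ Q a b c = 14 * D * z ^ 2 ∧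
        R a b c = -8 * D * z ^ 2 := by
  obtain ⟨w, hw, hw0, h⟩ := h
  obtain ⟨a, b, c, rfl⟩ := el_of_mem ht hw
  have hN : Nf a b c ≠ 0 := fun h0 => by
    obtain ⟨rfl, rfl, rfl⟩ := l2_aniso h0
    simp at hw0
  rw [hα] at h
  rcases h with h | ⟨X, Y, hY, h | ⟨h, -⟩⟩
  · obtain ⟨h1, h2, h3⟩ := l2_ind ht (a := P a b c - 1) (b := Q a b c) (c := R a b c)
      (by rw [map_sub, map_one]; linear_combination h)
    exact ⟨a, b, c, 1, 0, hN, by rw [sub_eq_zero.1 h1, h2, h3]; simp [Nf], by simp [h2],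
      by simp [h3]⟩
  · obtain ⟨h1, h2, h3⟩ := l2_ind ht (a := P a b c - X) (b := Q a b c - 14 * D)
      (c := R a b c + 8 * D) (by
        simp only [map_sub, map_add, map_mul, map_ofNat, map_intCast]
        unfold th at h
        linear_combination h)
    refine ⟨a, b, c, Y, 1, hN, ?_, by linear_combination h2, by linear_combination h3⟩
    rw [hY, sub_eq_zero.1 h1, sub_eq_zero.1 h2, eq_neg_of_add_eq_zero_left h3]
    unfold gD Nf
    ring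
  · obtain ⟨-, h2, -⟩ := l2_ind ht (a := X) (b := 14 * D) (c := -8 * D) (by
      simp only [map_neg, map_mul, map_ofNat, map_intCast]
      unfold th at h
      linear_combination h)
    simp [hD] at h2

theorem loc2 : StLoc2 := by
  intro D hD t ht
  have hD0 : D ≠ 0 := by rintro rfl; simp at hD
  have ht' : t ^ 3 - 2 * t ^ 2 + 2 = 0 := ht
  refine ⟨fun h => ?_, fun h => ?_, fun h => ?_⟩
  · obtain ⟨a, b, c, Y, z, hN, hY, -⟩ := l2_core hD0 ht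
      (fun a b c => -(a ^ 2 - 4 * b * c - 4 * c ^ 2)) (fun a b c => -(2 * a * b - 2 * c ^ 2))
      (fun a b c => -(2 * a * c + b ^ 2 + 4 * b * c + 4 * c ^ 2)) (fun a b c => by
        simp only [map_neg, map_add, map_sub, map_mul, map_pow, map_ofNat]
        linear_combination -(algebraMap ℚ_[2] _ c ^ 2 * (t + 2) +
          2 * algebraMap ℚ_[2] _ b * algebraMap ℚ_[2] _ c) * ht') h
    exact hN (l2_sq (u := Y) (by rw [hY]; unfold Nf; ring))
  · obtain ⟨a, b, c, Y, z, hN, -, h1, h2⟩ := l2_core hD0 ht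
      (fun a b c => a ^ 2 + 4 * b * c + 4 * c ^ 2 + 4 * a * c + 2 * b ^ 2)
      (fun a b c => 2 * a * b + 2 * c ^ 2 - a ^ 2 + 4 * b * c)
      (fun a b c => -2 * a * c - b ^ 2 - 4 * b * c - 2 * c ^ 2 + 2 * a * b * (-1))
      (fun a b c => by
        simp only [map_neg, map_add, map_sub, map_mul, map_pow, map_ofNat, map_one]
        linear_combination -(algebraMap ℚ_[2] _ c ^ 2 * (t ^ 2 + t + 2) +
          2 * algebraMap ℚ_[2] _ b * algebraMap ℚ_[2] _ c * (t + 1) +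
          2 * algebraMap ℚ_[2] _ a * algebraMap ℚ_[2] _ c + algebraMap ℚ_[2] _ b ^ 2) * ht') h
    obtain ⟨j, hj⟩ : ∃ j, (![a, b, c, z] : Fin 4 → ℚ_[2]) j ≠ 0 := by
      by_contra h3
      push Not at h3
      have ha : a = 0 := h3 0
      have hb : b = 0 := h3 1
      have hc : c = 0 := h3 2
      simp [Nf, ha, hb, hc] at hN
    obtain ⟨s, y, hs, hy, h3⟩ := l2_scale _ j hj
    have ha : a = s * algebraMap ℤ_[2] ℚ_[2] (y 0) := hy 0
    have hb : b = s * algebraMap ℤ_[2] ℚ_[2] (y 1) := hy 1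
    have hc : c = s * algebraMap ℤ_[2] ℚ_[2] (y 2) := hy 2
    have hz : z = s * algebraMap ℤ_[2] ℚ_[2] (y 3) := hy 3
    rw [ha, hb, hc, hz] at h1 h2
    have e1 : 2 * y 0 * y 1 + 2 * y 2 ^ 2 - y 0 ^ 2 + 4 * y 1 * y 2 = 14 * D * y 3 ^ 2 := by
      refine l2_inj hs 2 ?_
      simp only [map_add, map_sub, map_mul, map_pow, map_ofNat, map_intCast]
      linear_combination h1
    have e2 : 2 * y 0 * y 2 + y 1 ^ 2 + 4 * y 1 * y 2 + 2 * y 2 ^ 2 + 2 * y 0 * y 1 =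
        8 * D * y 3 ^ 2 := by
      refine l2_inj hs 2 ?_
      simp only [map_add, map_sub, map_mul, map_pow, map_ofNat, map_intCast]
      linear_combination -h2
    have hD4 : ((D : ℤ) : ZMod (2 ^ 2)) = 1 := by
      rw [← Int.cast_one, ZMod.intCast_eq_intCast_iff']
      exact hD
    have key : ∀ u v w x : ZMod (2 ^ 2), 2 * u * v + 2 * w ^ 2 - u ^ 2 + 4 * v * w = 14 * x ^ 2 →
        2 * u * w + v ^ 2 + 4 * v * w + 2 * w ^ 2 + 2 * u * v = 8 * x ^ 2 →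
        ¬ (u = 1 ∨ v = 1 ∨ w = 1 ∨ x = 1) := by decide +kernel
    refine key (PadicInt.toZModPow 2 (y 0)) (PadicInt.toZModPow 2 (y 1))
      (PadicInt.toZModPow 2 (y 2)) (PadicInt.toZModPow 2 (y 3)) ?_ ?_ ?_
    · simpa [map_ofNat, hD4] using congrArg (PadicInt.toZModPow 2) e1
    · simpa [map_ofNat, hD4] using congrArg (PadicInt.toZModPow 2) e2
    · rcases h3 with h3 | h3 | h3 | h3 <;> simp [h3]
  · obtain ⟨a, b, c, Y, z, hN, hY, -⟩ := l2_core hD0 ht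
      (fun a b c => -(a ^ 2 + 4 * b * c + 4 * c ^ 2 + 4 * a * c + 2 * b ^ 2))
      (fun a b c => -(2 * a * b + 2 * c ^ 2 - a ^ 2 + 4 * b * c))
      (fun a b c => 2 * a * c + b ^ 2 + 4 * b * c + 2 * c ^ 2 + 2 * a * b)
      (fun a b c => by
        simp only [map_neg, map_add, map_sub, map_mul, map_pow, map_ofNat]
        linear_combination (algebraMap ℚ_[2] _ c ^ 2 * (t ^ 2 + t + 2) +
          2 * algebraMap ℚ_[2] _ b * algebraMap ℚ_[2] _ c * (t + 1) +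
          2 * algebraMap ℚ_[2] _ a * algebraMap ℚ_[2] _ c + algebraMap ℚ_[2] _ b ^ 2) * ht') h
    exact hN (l2_sq (u := Y) (by rw [hY]; unfold Nf; ring))

end Vale.Agent.P014Y.G
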