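import Vale.Agent.P014Y.G.Defs

/-!
# P014Y, Galois half: the row SQ11
-/

namespace Vale.Agent.P014Y.G

namespace Sq11

theorem fixed {q : ℕ} [Fact q.Prime] {K : Type} [Field K] [Algebra (ZMod q) K] {x : K}
    (h : x ^ q = x) : ∃ a : ZMod q, algebraMap (ZMod q) K a = x := by
  have : CharP K q := (Algebra.charP_iff (ZMod q) K q).1 inferInstance
  have h1 := (Subfield.mem_bot_iff_pow_eq_self K q).2 h
  exact (bot_le : ⊥ ≤ (algebraMap (ZMod q) K).fieldRange) h1

theorem not_isR {q : ℕ} [Fact q.Prime] (h2 : (2 : ZMod q) ≠ 0) (h : NoRoot q) (t : ZMod q) :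
    ¬IsR t := fun ht => by
  have h1 := gD_factor 1 ht (th t)
  simp only [gD, Int.cast_one, one_mul, sub_self, zero_mul, mul_one, one_pow] at h1
  refine h (th t / 4) ?_
  have h4 : (4 : ZMod q) ≠ 0 := by
    rw [show (4 : ZMod q) = 2 * 2 by norm_num]
    exact mul_ne_zero h2 h2
  field_simp
  linear_combination h1

theorem disc {K : Type} [CommRing K] {t s : K} (ht : IsR t)
    (h : t ^ 2 + t * s + s ^ 2 - 2 * (t + s) = 0) :
    ((t - s) * (t - (2 - t - s)) * (s - (2 - t - s))) ^ 2 = -44 := by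
  unfold IsR at ht
  have h2 : t * s + (t + s) * (2 - t - s) = 0 := by linear_combination -h
  have h3 : t * s * (2 - t - s) = -2 := by linear_combination ht - t * h
  have h4 : ∀ e f : K, e = t * s + (t + s) * (2 - t - s) → f = t * s * (2 - t - s) →
      ((t - s) * (t - (2 - t - s)) * (s - (2 - t - s))) ^ 2 =
        4 * e ^ 2 - 4 * e ^ 3 - 32 * f + 36 * e * f - 27 * f ^ 2 := by
    rintro _ _ rfl rfl
    ring
  rw [h4 0 (-2) h2.symm h3.symm]
  norm_num

theorem sq_neg {q : ℕ} [Fact q.Prime] (h2 : (2 : ZMod q) ≠ 0) (h : NoRoot q) :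
    IsSquare (-11 : ZMod q) := by
  let K := AlgebraicClosure (ZMod q)
  obtain ⟨t, ht⟩ : ∃ t : K, IsR t := by
    obtain ⟨t, ht⟩ := IsAlgClosed.exists_root (k := K) (Polynomial.X ^ 3 - 2 * Polynomial.X ^ 2 + 2)
      (by
        have : (Polynomial.X ^ 3 - 2 * Polynomial.X ^ 2 + 2 : Polynomial K).degree = 3 := by
          compute_degree!
        rw [this]
        decide)
    exact ⟨t, by simpa [IsR] using ht⟩
  let φ := frobenius K q
  have hφ : ∀ s : K, IsR s → IsR (φ s) := fun s hs => by
    have := congrArg φ hs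
    simpa only [IsR, map_add, map_sub, map_mul, map_pow, map_ofNat, map_zero] using this
  have hne : ∀ s : K, IsR s → φ s ≠ s := fun s hs e => by
    obtain ⟨a, rfl⟩ := fixed (q := q) (x := s) e
    refine not_isR h2 h a ((algebraMap (ZMod q) K).injective ?_)
    simpa only [IsR, map_add, map_sub, map_mul, map_pow, map_ofNat, map_zero] using hs
  have hq : ∀ s s' : K, IsR s → IsR s' → s' ≠ s → s ^ 2 + s * s' + s' ^ 2 - 2 * (s + s') = 0 :=
    fun s s' hs hs' e => by
      unfold IsR at hs hs'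
      refine mul_left_cancel₀ (sub_ne_zero.2 e) ?_
      linear_combination hs' - hs
  have h12 := hne t ht
  have h23 := hne _ (hφ t ht)
  have q12 := hq _ _ ht (hφ t ht) h12
  have h13 : φ (φ t) ≠ t := fun e => by
    refine hne (2 - t - φ t) ?_ ?_
    · unfold IsR at ht ⊢
      linear_combination (2 - 2 * t - φ t) * q12 + ht
    · rw [map_sub, map_sub, e, map_ofNat]
      ring
  have q13 := hq _ _ ht (hφ _ (hφ t ht)) h13
  have h3 : φ (φ t) = 2 - t - φ t := by
    refine mul_left_cancel₀ (sub_ne_zero.2 h23) ?_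
    linear_combination q13 - q12
  have h4 : φ (φ (φ t)) = t := by
    have h5 := congrArg φ h3
    rw [map_sub, map_sub, map_ofNat] at h5
    linear_combination h5 - h3
  obtain ⟨a, ha⟩ := fixed (q := q) (x := (t - φ t) * (t - φ (φ t)) * (φ t - φ (φ t))) (by
    change φ _ = _
    simp only [map_mul, map_sub, h4]
    ring)
  have h5 : a ^ 2 = -44 := by
    refine (algebraMap (ZMod q) K).injective ?_
    rw [map_pow, ha, map_neg, map_ofNat, h3]
    exact disc ht q12
  exact ⟨a / 2, by field_simp; linear_combination -h5⟩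

theorem not_eleven : ¬NoRoot 11 := fun h => h 5 (by decide)

theorem sq_prime {q : ℕ} (hq : q.Prime) (h2 : q ≠ 2) (h : NoRoot q) :
    IsSquare ((q : ℕ) : ZMod 11) := by
  have : Fact q.Prime := ⟨hq⟩
  have : Fact (Nat.Prime 11) := ⟨by norm_num⟩
  have h11 : q ≠ 11 := fun e => not_eleven (e ▸ h)
  have h0 : ∀ p : ℕ, p.Prime → q ≠ p → (p : ZMod q) ≠ 0 := fun p hp e h0 =>
    e ((Nat.prime_dvd_prime_iff_eq hq hp).1 ((ZMod.natCast_eq_zero_iff p q).1 h0))
  have h1 := sq_neg (by exact_mod_cast h0 2 Nat.prime_two h2) h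
  have h3 : (11 : ZMod q) ≠ 0 := by exact_mod_cast h0 11 this.out h11
  have h4 := hq.eq_two_or_odd.resolve_left h2
  by_cases h5 : q % 4 = 3
  · refine (ZMod.exists_sq_eq_prime_iff_of_mod_four_eq_three (p := 11) (by norm_num) h5
      h11.symm).2 fun h6 => ZMod.exists_sq_eq_neg_one_iff.1 ?_ h5
    have h7 := h1.div (b := 11) (by exact_mod_cast h6)
    rwa [neg_div, div_self h3] at h7
  · refine (ZMod.exists_sq_eq_prime_iff_of_mod_four_eq_one (p := q) (q := 11) (by omega)
      (by norm_num)).1 ?_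
    have h7 := h1.mul (ZMod.exists_sq_eq_neg_one_iff.2 h5)
    simpa using h7

end Sq11

open Sq11 in
theorem sq11 : StSq11 := by
  intro M hM
  refine ⟨fun h => not_eleven (hM.nr 11 (by norm_num) h), ?_⟩
  have h : ∀ n : ℕ, n ∣ M → IsSquare ((n : ℕ) : ZMod 11) := fun n => by
    induction n using induction_on_primes with
    | zero => exact fun _ => by simp
    | one => exact fun _ => by simp
    | prime_mul p a hp ih =>
      intro hd
      have h1 : p ∣ M := (dvd_mul_right p a).trans hd
      have h2 : p ≠ 2 := by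
        rintro rfl
        have := hM.mod4
        omega
      rw [Nat.cast_mul]
      exact (sq_prime hp h2 (hM.nr p hp h1)).mul (ih ((dvd_mul_left a p).trans hd))
  exact_mod_cast h M dvd_rfl

end Vale.Agent.P014Y.G
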