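import Vale.Agent.P014Y.G.Defs

/-!
# P014Y, Galois half: the valuations of the descent map at eleven
-/

namespace Vale.Agent.P014Y.G

open scoped IntermediateField
open IsUltrametricDist

namespace V11

section

variable {L : Type*} [NormedField L] [IsUltrametricDist L] {a b T d x : L}

theorem big (h : ‖b‖ < ‖a‖) : ‖a + b‖ = ‖a‖ := by
  rw [norm_add_eq_max_of_norm_ne_norm h.ne', max_eq_left h.le]

theorem big' (h : ‖b‖ < ‖a‖) : ‖a - b‖ = ‖a‖ := by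
  rw [sub_eq_add_neg, big (by rwa [norm_neg])]

/-- the equation of `θ + 420` and the norms of its coefficients -/
structure Eqn (T : L) : Prop where
  eq : T ^ 3 - 1264 * T ^ 2 + 400 * 11 ^ 3 * T - 464 * 11 ^ 5 = 0
  n1 : ‖(11 : L)‖ = 1 / 11
  n2 : ‖(1264 : L)‖ = 1
  n3 : ‖(464 : L)‖ = 1
  n4 : ‖(400 : L)‖ = 1

theorem Eqn.key (h : Eqn T) : ∃ u : ℝ, ‖T‖ ^ 2 * ‖T - 1264‖ = u / 1331 ∧ u ≤ max (1 / 121) ‖T‖ ∧
    (‖T‖ < 1 / 121 → u = 1 / 121) := by
  have e : T ^ 2 * (T - 1264) = 11 ^ 3 * (464 * 11 ^ 2 + -(400 * T)) := by linear_combination h.eq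
  have k1 : ‖(464 * 11 ^ 2 : L)‖ = 1 / 121 := by
    rw [norm_mul, norm_pow, h.n1, h.n3]
    norm_num
  have k2 : ‖-(400 * T)‖ = ‖T‖ := by rw [norm_neg, norm_mul, h.n4, one_mul]
  refine ⟨‖464 * 11 ^ 2 + -(400 * T)‖, ?_, k1 ▸ k2 ▸ norm_add_le_max _ _, fun k => ?_⟩
  · rw [← norm_pow, ← norm_mul, e, norm_mul, norm_pow, h.n1]
    ring
  · rw [big (by rwa [k1, k2]), k1]

theorem Eqn.dich (h : Eqn T) : ‖T / 11 ^ 2‖ ^ 2 = 1 / 11 ∨ ‖T‖ = 1 := by
  obtain ⟨u, h1, h2, h3⟩ := h.key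
  rcases lt_trichotomy ‖T‖ 1 with k | k | k
  · rw [norm_sub_rev, big' (h.n2 ▸ k), h.n2, mul_one] at h1
    by_cases k' : ‖T‖ < 1 / 121
    · left
      rw [norm_div, div_pow, h1, h3 k', norm_pow, h.n1]
      norm_num
    · rw [max_eq_right (not_lt.1 k')] at h2
      nlinarith [not_lt.1 k']
  · exact .inr k
  · rw [big' (h.n2 ▸ k)] at h1
    rw [max_eq_right (by linarith)] at h2
    nlinarith [mul_pos (sub_pos.2 k) (sub_pos.2 k)]

theorem Eqn.nB (h : Eqn T) (h1 : ‖T‖ = 1) (hd : ‖d‖ = 1 / 11) (hx : 1 / 1331 ≤ ‖x‖) :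
    ‖x ^ 2 + (x * d * (T - 1264) + d ^ 2 * (T ^ 2 - 1264 * T + 400 * 11 ^ 3))‖ = ‖x‖ ^ 2 := by
  obtain ⟨u, k1, k2, -⟩ := h.key
  rw [h1, max_eq_right (by norm_num)] at k2
  rw [h1, one_pow, one_mul] at k1
  have e : T * (T ^ 2 - 1264 * T + 400 * 11 ^ 3) = 464 * 11 ^ 5 := by linear_combination h.eq
  have k3 := congrArg norm e
  rw [norm_mul, norm_mul, norm_pow, h1, h.n1, h.n3, one_mul] at k3
  refine (big ((norm_add_le_max _ _).trans_lt (max_lt ?_ ?_))).trans (norm_pow _ _)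
  · rw [norm_mul, norm_mul, hd, k1, norm_pow]
    nlinarith
  · rw [norm_mul, k3, norm_pow, hd, norm_pow]
    nlinarith

end

theorem nsq (y m z : ZMod 11) : m * m ≠ 0 → y ^ 2 ≠ 11 * z + 464 * (m * m) ^ 3 := by
  rw [show (11 : ZMod 11) = 0 from rfl, zero_mul, zero_add]
  revert y m
  decide

variable [Fact (Nat.Prime 11)]

theorem low {M : ℕ} (hM : ¬ 11 ∣ M) (hs : IsSquare ((M : ℤ) : ZMod 11)) {X Y : ℚ_[11]}
    (h : Y ^ 2 = X ^ 3 + 1264 * 11 * M * X ^ 2 + 400 * 11 ^ 5 * M ^ 2 * X + 464 * 11 ^ 8 * M ^ 3) :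
    1 / 1331 ≤ ‖X‖ := by
  by_contra hn
  have h0 : ‖(11 : ℚ_[11])‖ = 1 / 11 := by simpa using Padic.norm_p (p := 11)
  have h1 : ‖X‖ ≤ _ := (Padic.norm_lt_pow_iff_norm_le_pow_sub_one X (-3)).1
    ((not_le.1 hn).trans_eq (by norm_num))
  let x : ℤ_[11] := ⟨X / 11 ^ 4, by
    rw [norm_div, norm_pow, h0, div_le_one (by norm_num)]
    exact h1.trans_eq (by norm_num)⟩
  have h2 : (Y / 11 ^ 4) ^ 2 = PadicInt.Coe.ringHom (p := 11)
      (11 * (11 ^ 3 * x ^ 3 + 1264 * M * x ^ 2 + 400 * M ^ 2 * x) + 464 * M ^ 3 : ℤ_[11]) := by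
    simp only [map_add, map_mul, map_pow, map_ofNat, map_natCast]
    rw [show PadicInt.Coe.ringHom x = X / 11 ^ 4 from rfl]
    field_simp
    linear_combination h
  let y : ℤ_[11] := ⟨Y / 11 ^ 4, by
    rw [← pow_le_one_iff_of_nonneg (norm_nonneg _) two_ne_zero, ← norm_pow, h2]
    exact PadicInt.norm_le_one _⟩
  have h4 := congrArg PadicInt.toZMod (PadicInt.ext (x := y ^ 2) h2)
  obtain ⟨m, hm⟩ := hs
  rw [Int.cast_natCast] at hm
  simp only [map_add, map_mul, map_pow, map_ofNat, map_natCast] at h4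
  rw [hm] at h4
  exact nsq _ m _ (hm ▸ mt (ZMod.natCast_eq_zero_iff M 11).1 hM) h4

theorem nat {n : ℕ} (h : Nat.Coprime 11 n) : ‖(n : PadicAlgCl 11)‖ = 1 := by
  rw [← map_natCast (algebraMap ℚ_[11] _), PadicAlgCl.norm_extends]
  exact Padic.norm_natCast_eq_one_iff.2 h

theorem n11 : ‖(11 : PadicAlgCl 11)‖ = 1 / 11 := by
  have h := PadicAlgCl.norm_extends 11 11
  rw [map_ofNat] at h
  simpa [h] using Padic.norm_p (p := 11)

theorem evn {t z w : PadicAlgCl 11} (ht : IsR t) (hw : w ∈ ℚ⟮t⟯) (h : ‖z‖ = ‖w‖ ^ 2) : EvN t z := by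
  obtain ⟨a, b, c, rfl⟩ := el_of_mem ht hw
  exact ⟨a, b, c, h⟩

theorem evq {t z : PadicAlgCl 11} (ht : IsR t) {X : ℚ_[11]} (h : ‖z‖ = ‖X‖ ^ 2) : EvN t z := by
  rcases eq_or_ne X 0 with rfl | h0
  · exact evn ht (zero_mem _) (by simpa using h)
  refine evn ht (w := 11 ^ X.valuation) (zpow_mem (ofNat_mem _ 11) _) ?_
  rw [h, Padic.norm_eq_zpow_neg_valuation h0, norm_zpow, n11]
  simp

end V11

open V11

theorem val11 : StVal11 := by
  intro _ M hM hs t ht X Y h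
  have h1 : 1 / 1331 ≤ ‖X - 4620 * M‖ := low (Y := Y) hM hs (by
    rw [h, gD]
    push_cast
    ring)
  have hE : Eqn (th t + 420) := ⟨by
    unfold IsR at ht
    unfold th
    linear_combination (512 * t ^ 3 - 1664 * t ^ 2 + 1120 * t - 632) * ht, n11,
    nat (n := 1264) (by norm_num), nat (n := 464) (by norm_num), nat (n := 400) (by norm_num)⟩
  have hd : ‖((-11 * M : ℤ) : PadicAlgCl 11)‖ = 1 / 11 := by
    push_cast
    rw [norm_mul, norm_neg, n11, nat ((Nat.Prime.coprime_iff_not_dvd Fact.out).2 hM), mul_one]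
  have hA : algebraMap ℚ_[11] (PadicAlgCl 11) X - (-11 * M : ℤ) * th t =
      algebraMap ℚ_[11] (PadicAlgCl 11) (X - 4620 * M) - (-11 * M : ℤ) * (th t + 420) := by
    simp only [map_sub, map_mul, map_ofNat, map_natCast]
    push_cast
    ring
  have hY : algebraMap ℚ_[11] (PadicAlgCl 11) Y ^ 2 =
      gD (-11 * M) (algebraMap ℚ_[11] (PadicAlgCl 11) X) := by
    rw [← map_pow, h]
    simp [gD, map_ofNat]
  have h0 : X - 4620 * M ≠ 0 := norm_pos_iff.1 (lt_of_lt_of_le (by norm_num) h1)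
  have hx := PadicAlgCl.norm_extends 11 (X - 4620 * M)
  rcases hE.dich with k | k
  · have k1 : ‖algebraMap ℚ_[11] (PadicAlgCl 11) X - (-11 * M : ℤ) * th t‖ = ‖X - 4620 * M‖ := by
      rw [hA, big' ?_, hx]
      rw [norm_div, norm_pow, n11, div_pow, div_eq_iff (by norm_num)] at k
      rw [norm_mul, hd, hx]
      refine lt_of_lt_of_le (lt_of_pow_lt_pow_left₀ 2 (by norm_num) ?_) h1
      rw [mul_pow, k]
      norm_num
    refine ⟨fun _ => evn ht (w := ((th t + 420) / 11 ^ 2) ^ (X - 4620 * M).valuation) ?_ ?_,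
      fun k2 => ?_⟩
    · have := IntermediateField.mem_adjoin_simple_self ℚ t
      exact zpow_mem (div_mem (add_mem (sub_mem (mul_mem (ofNat_mem _ 8) (pow_mem this 2))
        (mul_mem (ofNat_mem _ 14) this)) (ofNat_mem _ 420)) (pow_mem (ofNat_mem _ 11) 2)) _
    · rw [k1, norm_zpow, sq, ← mul_zpow, ← sq, k, Padic.norm_eq_zpow_neg_valuation h0]
      simp
    · rw [k2, sub_self, norm_zero] at k1
      exact absurd (norm_eq_zero.1 k1.symm) h0
  · have k1 := hE.nB k hd (hx ▸ h1)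
    have k2 := gD_factor (-11 * M) ht (algebraMap ℚ_[11] (PadicAlgCl 11) X)
    have k3 : ‖(algebraMap ℚ_[11] (PadicAlgCl 11) X - (-11 * M : ℤ) * th t) ^ 2 +
        (algebraMap ℚ_[11] (PadicAlgCl 11) X - (-11 * M : ℤ) * th t) *
          ((-11 * M : ℤ) * (3 * th t - 4)) + dl (-11 * M) t‖ = ‖X - 4620 * M‖ ^ 2 := by
      rw [← hx, ← k1, hA, dl]
      congr 1
      ring
    refine ⟨fun _ => evq ht (X := Y / (X - 4620 * M)) ?_, fun k4 => evq ht (X := X - 4620 * M) ?_⟩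
    · have k5 := congrArg norm (hY.trans k2)
      rw [norm_mul, k3, norm_pow, PadicAlgCl.norm_extends] at k5
      rw [norm_div, div_pow, k5, mul_div_cancel_right₀ _ (pow_ne_zero _ (norm_ne_zero_iff.2 h0))]
    · rw [← k3, k4]
      simp

end Vale.Agent.P014Y.G
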