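import Vale.Agent.P014Y.G.Defs

/-!
# P014Y, row VAL2: the valuation of the descent map at the prime above two is even
-/

namespace Vale.Agent.P014Y.G

theorem v2_two : ‖(2 : PadicAlgCl 2)‖ = 1 / 2 := by
  have h : (2 : PadicAlgCl 2) = algebraMap ℚ_[2] (PadicAlgCl 2) ((2 : ℕ) : ℚ_[2]) := by
    rw [map_natCast]; rfl
  rw [h, norm_algebraMap', Padic.norm_p]
  norm_num

theorem v2_int_le (n : ℤ) : ‖(n : PadicAlgCl 2)‖ ≤ 1 := IsUltrametricDist.norm_intCast_le_one _ n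

theorem v2_add_eq {x y : PadicAlgCl 2} (h : ‖y‖ < ‖x‖) : ‖x + y‖ = ‖x‖ := by
  rw [IsUltrametricDist.norm_add_eq_max_of_norm_ne_norm h.ne', max_eq_left h.le]

theorem v2_add_lt {x y : PadicAlgCl 2} {r : ℝ} (hx : ‖x‖ < r) (hy : ‖y‖ < r) : ‖x + y‖ < r :=
  (IsUltrametricDist.norm_add_le_max x y).trans_lt (max_lt hx hy)

theorem v2_odd {D : ℤ} (hD : D % 2 = 1) : ‖(D : PadicAlgCl 2)‖ = 1 := by
  obtain ⟨k, rfl⟩ : ∃ k, D = 1 + 2 * k := ⟨D / 2, by omega⟩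
  have h : ‖(2 * k : PadicAlgCl 2)‖ < ‖(1 : PadicAlgCl 2)‖ := by
    rw [norm_mul, v2_two, norm_one]
    have := v2_int_le k
    linarith
  push_cast
  rw [v2_add_eq h, norm_one]

theorem v2_t {t : PadicAlgCl 2} (ht : IsR t) : ‖t‖ ^ 3 = 1 / 2 := by
  unfold IsR at ht
  have h1 : t ^ 3 = 2 * (-1 + t ^ 2) := by linear_combination ht
  have h2 : ‖t‖ ^ 3 = 1 / 2 * ‖-1 + t ^ 2‖ := by rw [← norm_pow, h1, norm_mul, v2_two]
  have h3 : ‖t‖ < 1 := by
    by_contra hc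
    rw [not_lt] at hc
    have h4 : ‖-1 + t ^ 2‖ ≤ ‖t‖ ^ 2 := by
      refine (IsUltrametricDist.norm_add_le_max _ _).trans (max_le ?_ ?_)
      · rw [norm_neg, norm_one]; exact one_le_pow₀ hc
      · rw [norm_pow]
    have h5 : 0 < ‖t‖ ^ 2 := by positivity
    nlinarith
  have h6 : ‖t ^ 2‖ < ‖(-1 : PadicAlgCl 2)‖ := by
    rw [norm_neg, norm_one, norm_pow]
    exact pow_lt_one₀ (norm_nonneg _) h3 two_ne_zero
  rw [h2, v2_add_eq h6, norm_neg, norm_one, mul_one]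

theorem v2_t_lt {t : PadicAlgCl 2} (ht : IsR t) : ‖t‖ < 1 := by
  have h := v2_t ht
  by_contra hc
  rw [not_lt] at hc
  have := one_le_pow₀ (n := 3) hc
  linarith

theorem v2_t_gt {t : PadicAlgCl 2} (ht : IsR t) : 1 / 2 < ‖t‖ := by
  have h := v2_t ht
  by_contra hc
  rw [not_lt] at hc
  have := pow_le_pow_left₀ (norm_nonneg t) hc 3
  linarith

theorem v2_th {t : PadicAlgCl 2} (ht : IsR t) : ‖th t‖ = 1 / 2 * ‖t‖ := by
  have h1 : th t = 2 * t * (((-7 : ℤ) : PadicAlgCl 2) + 2 * 2 * t) := by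
    unfold th; push_cast; ring
  have h2 : ‖((-7 : ℤ) : PadicAlgCl 2)‖ = 1 := v2_odd (by norm_num)
  have h3 : ‖(2 * 2 * t : PadicAlgCl 2)‖ < ‖((-7 : ℤ) : PadicAlgCl 2)‖ := by
    rw [h2, norm_mul, norm_mul, v2_two]
    have := v2_t_lt ht
    linarith
  rw [h1, norm_mul, norm_mul, v2_add_eq h3, h2, v2_two, mul_one]

theorem v2_cases (X : ℚ_[2]) : ‖X‖ ≤ 1 / 4 ∨ 1 / 2 ≤ ‖X‖ := by
  by_cases h0 : X = 0
  · left; rw [h0, norm_zero]; norm_num
  rw [Padic.norm_eq_zpow_neg_valuation h0]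
  rcases le_or_gt (-X.valuation) (-2) with h | h
  · left
    refine (zpow_le_zpow_right₀ (by norm_num) h).trans ?_
    norm_num
  · right
    refine le_trans ?_ (zpow_le_zpow_right₀ (by norm_num) (show (-1 : ℤ) ≤ _ by omega))
    norm_num

theorem v2_rat (Z : ℚ_[2]) (hZ : Z ≠ 0) : ∃ a : ℚ, ‖(a : PadicAlgCl 2)‖ = ‖Z‖ := by
  obtain ⟨a, ha⟩ := Padic.rat_dense 2 Z (norm_pos_iff.mpr hZ)
  refine ⟨a, ?_⟩
  have h1 : (a : PadicAlgCl 2) = algebraMap ℚ_[2] (PadicAlgCl 2) (a : ℚ_[2]) := by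
    rw [map_ratCast]
  rw [h1, norm_algebraMap']
  have h2 : (a : ℚ_[2]) = Z + -(Z - a) := by ring
  have h3 : ‖-(Z - a)‖ < ‖Z‖ := by rwa [norm_neg]
  rw [h2, IsUltrametricDist.norm_add_eq_max_of_norm_ne_norm h3.ne', max_eq_left h3.le]

theorem val2 : StVal2 := by
  intro D hD t ht X Y hY
  have hlt := v2_t_lt ht
  have hgt := v2_t_gt ht
  have hD1 := v2_odd hD
  have hth := v2_th ht
  have hDt : ‖(D : PadicAlgCl 2) * th t‖ = 1 / 2 * ‖t‖ := by rw [norm_mul, hD1, hth, one_mul]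
  have hX : ‖algebraMap ℚ_[2] (PadicAlgCl 2) X‖ = ‖X‖ := norm_algebraMap' _ _
  refine ⟨fun _ => ?_, fun h => ?_⟩
  swap
  · exfalso
    rw [h, hDt] at hX
    rcases v2_cases X with h1 | h1 <;> linarith
  rcases v2_cases X with h1 | h1
  · refine ⟨0, 0, 1, ?_⟩
    have h2 : ‖algebraMap ℚ_[2] (PadicAlgCl 2) X‖ < ‖-((D : PadicAlgCl 2) * th t)‖ := by
      rw [norm_neg, hDt, hX]; linarith
    rw [sub_eq_neg_add, v2_add_eq h2, norm_neg, hDt]
    have h3 := v2_t ht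
    simp only [Rat.cast_zero, zero_mul, add_zero, Rat.cast_one, one_mul, zero_add, norm_pow]
    rw [← h3]; ring
  · have h2 : ‖-((D : PadicAlgCl 2) * th t)‖ < ‖algebraMap ℚ_[2] (PadicAlgCl 2) X‖ := by
      rw [norm_neg, hDt, hX]; linarith
    have hA : ‖algebraMap ℚ_[2] (PadicAlgCl 2) X - D * th t‖ = ‖X‖ := by
      rw [sub_eq_add_neg, v2_add_eq h2, hX]
    have hg : algebraMap ℚ_[2] (PadicAlgCl 2) Y ^ 2 =
        gD D (algebraMap ℚ_[2] (PadicAlgCl 2) X) := by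
      rw [← map_pow, hY]
      simp only [gD, map_sub, map_mul, map_pow, map_intCast, map_ofNat]
    rw [gD_factor D ht] at hg
    set A := algebraMap ℚ_[2] (PadicAlgCl 2) X - D * th t with hAdef
    have h3le : ‖(3 : PadicAlgCl 2)‖ ≤ 1 := by simpa using v2_int_le 3
    have h5le : ‖(5 : PadicAlgCl 2)‖ ≤ 1 := by simpa using v2_int_le 5
    have hB : ‖(D : PadicAlgCl 2) * (3 * th t - 4)‖ < 1 / 2 := by
      rw [norm_mul, hD1, one_mul, sub_eq_add_neg]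
      refine v2_add_lt ?_ ?_
      · rw [norm_mul, hth]
        have := norm_nonneg (3 : PadicAlgCl 2)
        nlinarith
      · rw [norm_neg, show (4 : PadicAlgCl 2) = 2 * 2 by norm_num, norm_mul, v2_two]
        norm_num
    have hC : ‖dl D t‖ < 1 / 4 := by
      unfold dl
      rw [norm_mul, norm_pow, hD1, one_pow, one_mul, sub_eq_add_neg, sub_eq_add_neg]
      refine v2_add_lt (v2_add_lt ?_ ?_) ?_
      · rw [norm_mul, norm_pow, hth]
        have := norm_nonneg (3 : PadicAlgCl 2)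
        have h7 : (1 / 2 * ‖t‖) ^ 2 < 1 / 4 := by nlinarith
        have h8 : 0 ≤ (1 / 2 * ‖t‖) ^ 2 := by positivity
        nlinarith
      · rw [norm_neg, show (8 : PadicAlgCl 2) = 2 * 2 * 2 by norm_num, norm_mul, norm_mul,
          norm_mul, v2_two, hth]
        linarith
      · rw [norm_neg, show (160 : PadicAlgCl 2) = 2 * 2 * 2 * 2 * 2 * 5 by norm_num, norm_mul,
          norm_mul, norm_mul, norm_mul, norm_mul, v2_two]
        linarith
    have hpos : 0 < ‖X‖ := by linarith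
    have hS : ‖A ^ 2 + A * (D * (3 * th t - 4)) + dl D t‖ = ‖X‖ ^ 2 := by
      have h9 : ‖A * (D * (3 * th t - 4)) + dl D t‖ < ‖A ^ 2‖ := by
        rw [norm_pow, hA]
        refine v2_add_lt ?_ ?_
        · rw [norm_mul, hA]
          nlinarith
        · nlinarith
      rw [add_assoc, v2_add_eq h9, norm_pow, hA]
    have hN : ‖Y‖ ^ 2 = ‖X‖ * ‖X‖ ^ 2 := by
      have := congrArg norm hg
      rwa [norm_pow, norm_algebraMap', norm_mul, hA, hS] at this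
    have hX0 : X ≠ 0 := norm_pos_iff.mp hpos
    have hY0 : Y ≠ 0 := by
      intro h
      rw [h, norm_zero] at hN
      have : 0 < ‖X‖ * ‖X‖ ^ 2 := by positivity
      nlinarith
    obtain ⟨a, ha⟩ := v2_rat (Y / X) (div_ne_zero hY0 hX0)
    refine ⟨a, 0, 0, ?_⟩
    simp only [Rat.cast_zero, zero_mul, add_zero]
    rw [hA, ha, norm_div, div_pow, hN]
    field_simp

end Vale.Agent.P014Y.G
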