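import Vale.Agent.P014Y.G.Defs

/-!
# P014Y: the local valuations at the good primes
-/

namespace Vale.Agent.P014Y.G

namespace ValG

open IsUltrametricDist

variable {K : Type*} [NormedField K] [IsUltrametricDist K]

/-- the unit ball -/
def R (K : Type*) [NormedField K] [IsUltrametricDist K] : Subring K where
  carrier := {x | ‖x‖ ≤ 1}
  mul_mem' := fun {a b} ha hb => (norm_mul a b).le.trans (mul_le_one₀ ha (norm_nonneg _) hb)
  one_mem' := norm_one.le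
  add_mem' := fun {a b} ha hb => (norm_add_le_max a b).trans (max_le ha hb)
  zero_mem' := norm_zero.le.trans zero_le_one
  neg_mem' := fun {a} ha => (norm_neg a).le.trans ha

theorem add_lt {a b : K} (h : ‖b‖ < ‖a‖) : ‖a + b‖ = ‖a‖ := by
  rw [norm_add_eq_max_of_norm_ne_norm h.ne', max_eq_left h.le]

theorem t_mem {t : K} (ht : IsR t) : t ∈ R K := by
  by_contra h
  have h1 : 1 < ‖t‖ := not_le.1 h
  have h2 : ‖(2 : K)‖ ≤ 1 := ofNat_mem (R K) 2
  have e : t ^ 3 = 2 * t ^ 2 + -2 := by unfold IsR at ht; linear_combination ht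
  have k := norm_add_le_max (2 * t ^ 2) (-2)
  rw [← e, norm_pow, norm_mul, norm_pow, norm_neg] at k
  have h3 : 1 < ‖t‖ ^ 2 := one_lt_pow₀ h1 two_ne_zero
  have h4 : ‖t‖ ^ 2 < ‖t‖ ^ 3 := pow_lt_pow_right₀ h1 (by norm_num)
  rcases le_max_iff.1 k with k | k <;> nlinarith

theorem th_mem {t : K} (ht : IsR t) : th t ∈ R K :=
  sub_mem (mul_mem (ofNat_mem _ 8) (pow_mem (t_mem ht) 2)) (mul_mem (ofNat_mem _ 14) (t_mem ht))

theorem dl_one {t : K} (ht : IsR t) {D : ℤ} (hD : ‖(D : K)‖ = 1) (h : ‖((10648 : ℤ) : K)‖ = 1) :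
    ‖dl D t‖ = 1 := by
  have m1 : 3 * th t ^ 2 - 8 * th t - 160 ∈ R K := sub_mem (sub_mem (mul_mem (ofNat_mem _ 3)
    (pow_mem (th_mem ht) 2)) (mul_mem (ofNat_mem _ 8) (th_mem ht))) (ofNat_mem _ 160)
  have m2 : -26 - 25 * t + 32 * t ^ 2 ∈ R K := add_mem (sub_mem (neg_mem (ofNat_mem _ 26))
    (mul_mem (ofNat_mem _ 25) (t_mem ht))) (mul_mem (ofNat_mem _ 32) (pow_mem (t_mem ht) 2))
  have e : ((10648 : ℤ) : K) = (3 * th t ^ 2 - 8 * th t - 160) * (-26 - 25 * t + 32 * t ^ 2) := by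
    unfold IsR at ht
    unfold th
    push_cast
    linear_combination (-6144 * t ^ 3 + 14016 * t ^ 2 - 544 * t + 3244) * ht
  rw [e, norm_mul] at h
  rw [dl, norm_mul, norm_pow, hD, one_pow, one_mul]
  exact le_antisymm m1 (h.ge.trans (mul_le_of_le_one_right (norm_nonneg _) m2))

theorem key {A c d x y : K} (hc : ‖c‖ ≤ 1) (hd : ‖d‖ = 1) (hx : 1 < ‖A‖ → ‖A‖ = ‖x‖)
    (h : y ^ 2 = A * (A ^ 2 + A * c + d)) :
    ‖A‖ = ‖y / x‖ ^ 2 ∨ ‖A‖ = 1 ∨ ‖A‖ = ‖y‖ ^ 2 := by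
  have k := congrArg norm h
  rw [norm_pow, norm_mul] at k
  have hAc : ‖A * c‖ ≤ ‖A‖ := (norm_mul A c).le.trans (mul_le_of_le_one_right (norm_nonneg _) hc)
  rcases lt_trichotomy 1 ‖A‖ with h1 | h1 | h1
  · have h2 : ‖A‖ < ‖A ^ 2‖ := by rw [norm_pow]; nlinarith
    rw [add_assoc, add_lt ((norm_add_le_max _ _).trans_lt
      (max_lt (hAc.trans_lt h2) (hd.le.trans_lt (h1.trans h2)))), norm_pow] at k
    refine .inl ?_
    rw [norm_div, div_pow, k, ← hx h1, mul_div_cancel_right₀ _ (by positivity)]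
  · exact .inr (.inl h1.symm)
  · have h2 : ‖A ^ 2‖ < 1 := by rw [norm_pow]; exact pow_lt_one₀ (norm_nonneg _) h1 two_ne_zero
    rw [add_comm, add_lt ((norm_add_le_max _ _).trans_lt
      (max_lt (h2.trans_eq hd.symm) ((hAc.trans_lt h1).trans_eq hd.symm))), hd, mul_one] at k
    exact .inr (.inr k.symm)

variable {p : ℕ} [Fact p.Prime]

theorem evn {t z : PadicAlgCl p} (y : ℚ_[p])
    (h : ‖z‖ = ‖algebraMap ℚ_[p] (PadicAlgCl p) y‖ ^ 2) : EvN t z := by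
  have k : ∃ r : ℚ, ‖(r : ℚ_[p])‖ = ‖y‖ := by
    rcases eq_or_ne y 0 with rfl | hy
    · exact ⟨0, by simp⟩
    · obtain ⟨r, hr⟩ := Padic.rat_dense p y (norm_pos_iff.2 hy)
      refine ⟨r, ?_⟩
      rw [← add_lt (a := y) (b := -(y - r)) (by rwa [norm_neg]), neg_sub, add_sub_cancel]
  obtain ⟨r, hr⟩ := k
  refine ⟨r, 0, 0, ?_⟩
  rw [h, PadicAlgCl.norm_extends, ← hr, ← PadicAlgCl.norm_extends, map_ratCast]
  simp

theorem norm_int {n : ℤ} (h : ¬ (p : ℤ) ∣ n) : ‖(n : PadicAlgCl p)‖ = 1 := by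
  rw [← map_intCast (algebraMap ℚ_[p] (PadicAlgCl p)), PadicAlgCl.norm_extends]
  exact le_antisymm (Padic.norm_int_le_one n)
    (not_lt.1 fun k => h (Padic.norm_intCast_lt_one_iff.1 k))

end ValG

open ValG in
theorem valG : StValG := by
  intro p hp D h2 h11 hD t ht X Y h
  have hd : ‖dl D t‖ = 1 := dl_one ht (norm_int hD) (norm_int fun k => by
    have k' : p ∣ 2 ^ 3 * 11 ^ 3 := by exact_mod_cast k
    rcases (Nat.Prime.dvd_mul hp.1).1 k' with k | k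
    · exact h2 ((Nat.prime_dvd_prime_iff_eq hp.1 Nat.prime_two).1 (hp.1.dvd_of_dvd_pow k))
    · exact h11 ((Nat.prime_dvd_prime_iff_eq hp.1 (by norm_num)).1 (hp.1.dvd_of_dvd_pow k)))
  refine ⟨fun _ => ?_, fun _ => evn 1 (by simp [hd])⟩
  have e := congrArg (algebraMap ℚ_[p] (PadicAlgCl p)) h
  have e' : algebraMap ℚ_[p] (PadicAlgCl p) (gD D X) = gD D (algebraMap ℚ_[p] (PadicAlgCl p) X) := by
    simp [gD, map_ofNat]
  rw [map_pow, e', gD_factor D ht] at e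
  have m1 : (D : PadicAlgCl p) * th t ∈ R _ := mul_mem (intCast_mem _ D) (th_mem ht)
  have m2 : (D : PadicAlgCl p) * (3 * th t - 4) ∈ R _ := mul_mem (intCast_mem _ D)
    (sub_mem (mul_mem (ofNat_mem _ 3) (th_mem ht)) (ofNat_mem _ 4))
  rcases key (x := algebraMap ℚ_[p] (PadicAlgCl p) X) m2 hd (fun k => by
    rw [← add_lt (lt_of_le_of_lt m1 k), sub_add_cancel]) e with k | k | k
  · exact evn (Y / X) (by rwa [map_div₀])
  · exact evn 1 (by simp [k])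
  · exact evn Y k

end Vale.Agent.P014Y.G
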