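import Vale.Agent.P014Y.G.Defs

/-!
# P014Y, Galois half: the valuations at the primes which divide `D` exactly once
-/

namespace Vale.Agent.P014Y.G

namespace ValM

section ultra

variable {K : Type*} [NormedField K] [IsUltrametricDist K]

theorem sub_le (a b : K) : ‖a - b‖ ≤ max ‖a‖ ‖b‖ := by
  simpa [sub_eq_add_neg] using IsUltrametricDist.norm_add_le_max a (-b)

theorem sub_eq {a b : K} (h : ‖b‖ < ‖a‖) : ‖a - b‖ = ‖a‖ := by
  rw [sub_eq_add_neg, IsUltrametricDist.norm_add_eq_max_of_norm_ne_norm (by simpa using h.ne'),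
    norm_neg, max_eq_left h.le]

theorem nat_le (n : ℕ) [n.AtLeastTwo] : ‖(OfNat.ofNat n : K)‖ ≤ 1 :=
  IsUltrametricDist.norm_natCast_le_one K n

theorem t_le {t : K} (ht : IsR t) : ‖t‖ ≤ 1 ∧ ‖t‖ ^ 3 ≤ ‖(2 : K)‖ := by
  have e : t ^ 3 = 2 * (t ^ 2 - 1) := by unfold IsR at ht; linear_combination ht
  have k : ‖t‖ ^ 3 ≤ ‖(2 : K)‖ * max (‖t‖ ^ 2) 1 := by
    rw [← norm_pow, e, norm_mul]
    exact mul_le_mul_of_nonneg_left (by have := sub_le (t ^ 2) 1; rwa [norm_pow, norm_one] at this)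
      (norm_nonneg _)
  have h2 : ‖(2 : K)‖ ≤ 1 := nat_le 2
  have h1 : ‖t‖ ≤ 1 := by
    by_contra h
    push Not at h
    rw [max_eq_left (by nlinarith)] at k
    nlinarith [sq_nonneg ‖t‖, mul_le_mul_of_nonneg_right h2 (sq_nonneg ‖t‖), mul_pos
      (sub_pos.2 h) (pow_pos (one_pos.trans h) 2)]
  rw [max_eq_right (pow_le_one₀ (norm_nonneg _) h1), mul_one] at k
  exact ⟨h1, k⟩

theorem th_le {t : K} (ht : IsR t) : ‖th t‖ ≤ ‖(2 : K)‖ * ‖t‖ := by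
  rw [show th t = 2 * t * (4 * t - 7) by unfold th; ring, norm_mul, norm_mul]
  refine mul_le_of_le_one_right (by positivity) ((sub_le _ _).trans (max_le ?_ (nat_le 7)))
  rw [norm_mul]
  exact mul_le_one₀ (nat_le 4) (norm_nonneg _) (t_le ht).1

theorem psi {z : K} (h : 1 < ‖z‖) (h' : 1 < ‖(4 : K)‖ * ‖z‖ ^ 3) :
    ‖4 * z ^ 3 - 4 * z ^ 2 - 40 * z - 79‖ = ‖(4 : K)‖ * ‖z‖ ^ 3 := by
  have h4 : 0 < ‖(4 : K)‖ := (mul_pos_iff_of_pos_right (by positivity)).1 (one_pos.trans h')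
  have e : ‖4 * z ^ 3‖ = ‖(4 : K)‖ * ‖z‖ ^ 3 := by rw [norm_mul, norm_pow]
  have e1 : ‖4 * z ^ 3 - 4 * z ^ 2‖ = ‖(4 : K)‖ * ‖z‖ ^ 3 := (sub_eq (by
    rw [e, norm_mul, norm_pow]
    exact mul_lt_mul_of_pos_left (pow_lt_pow_right₀ h (by norm_num)) h4)).trans e
  have e2 : ‖4 * z ^ 3 - 4 * z ^ 2 - 40 * z‖ = ‖(4 : K)‖ * ‖z‖ ^ 3 := (sub_eq (by
    rw [e1, show (40 : K) * z = 4 * (10 * z) by ring, norm_mul, norm_mul]
    refine mul_lt_mul_of_pos_left ((mul_le_of_le_one_left (norm_nonneg _) (nat_le 10)).trans_lt ?_)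
      h4
    simpa using pow_lt_pow_right₀ h (show 1 < 3 by norm_num))).trans e1
  exact (sub_eq (e2 ▸ (nat_le 79).trans_lt h')).trans e2

end ultra

variable {p : ℕ} [hp : Fact p.Prime]

theorem two_ge : (1 / 2 : ℝ) ≤ ‖(2 : ℚ_[p])‖ := by
  by_cases h : p = 2
  · subst h
    exact le_of_eq (by simpa using (Padic.norm_p (p := 2)).symm)
  · have : ‖((2 : ℕ) : ℚ_[p])‖ = 1 :=
      Padic.norm_natCast_eq_one_iff.2 ((Nat.coprime_primes hp.1 Nat.prime_two).2 h)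
    rw [show (2 : ℚ_[p]) = ((2 : ℕ) : ℚ_[p]) by norm_num, this]
    norm_num

theorem big {z : ℚ_[p]} (h : 1 < ‖z‖) : 2 ≤ ‖z‖ := by
  have := (Padic.norm_le_pow_iff_norm_lt_pow_add_one z 0).not.1 (by simpa using h)
  simp only [zero_add, zpow_one, not_lt] at this
  exact le_trans (by exact_mod_cast hp.1.two_le) this

theorem norm_D {D : ℤ} (h : (p : ℤ) ∣ D) (h' : ¬ (p : ℤ) ^ 2 ∣ D) :
    ‖(D : ℚ_[p])‖ = (p : ℝ) ^ (-1 : ℤ) := by
  obtain ⟨m, rfl⟩ := h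
  have : ‖(m : ℚ_[p])‖ = 1 := (Padic.norm_int_le_one m).eq_of_not_lt fun k =>
    h' (by rw [sq]; exact mul_dvd_mul_left _ (Padic.norm_intCast_lt_one_iff.1 k))
  rw [Int.cast_mul, norm_mul, this, Int.cast_natCast, Padic.norm_p, mul_one, zpow_neg_one]

theorem not_sq (y : ℚ_[p]) : ‖y‖ ^ 2 ≠ (p : ℝ) ^ (-1 : ℤ) := fun h => by
  have h1 : (1 : ℝ) < p := by exact_mod_cast hp.1.one_lt
  have h0 : y ≠ 0 := fun k => (zpow_pos (one_pos.trans h1) (-1)).ne' (by rw [← h, k]; simp)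
  rw [Padic.norm_eq_zpow_neg_valuation h0, ← zpow_natCast, ← zpow_mul] at h
  have := zpow_right_injective₀ (one_pos.trans h1) h1.ne' h
  omega

theorem unit (h : NoRoot p) {z : ℚ_[p]} (hz : ‖z‖ ≤ 1) :
    ‖4 * z ^ 3 - 4 * z ^ 2 - 40 * z - 79‖ = 1 := by
  let u : ℤ_[p] := ⟨z, hz⟩
  have k : IsUnit (4 * u ^ 3 - 4 * u ^ 2 - 40 * u - 79) := by
    by_contra c
    have : 4 * u ^ 3 - 4 * u ^ 2 - 40 * u - 79 ∈ RingHom.ker (PadicInt.toZMod (p := p)) := by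
      rw [PadicInt.ker_toZMod]
      exact c
    refine h (PadicInt.toZMod u) ?_
    simpa only [RingHom.mem_ker, map_sub, map_mul, map_pow, map_ofNat] using this
  exact PadicInt.isUnit_iff.1 k

theorem ex_rat {y : ℚ_[p]} (h : y ≠ 0) : ∃ a : ℚ, ‖y‖ = ‖(a : PadicAlgCl p)‖ :=
  ⟨(p : ℚ) ^ y.valuation, by
    rw [← map_ratCast (algebraMap ℚ_[p] (PadicAlgCl p)), norm_algebraMap', Rat.cast_zpow,
      Rat.cast_natCast, Padic.norm_p_zpow, Padic.norm_eq_zpow_neg_valuation h]⟩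

end ValM

open ValM in
/-- row VALM, with `p = 2` included -/
theorem valM_all : StValM := by
  intro p hp D hr h1 h2 t ht X Y hY
  have hD := norm_D h1 h2
  have p0 : (0 : ℝ) < p := by exact_mod_cast hp.1.pos
  have D0 : (D : ℚ_[p]) ≠ 0 := norm_pos_iff.1 (hD ▸ zpow_pos p0 _)
  obtain ⟨z, rfl⟩ : ∃ z, X = 4 * D * z := ⟨X / (4 * D), by field_simp⟩
  have e : (Y / (4 * D)) ^ 2 = D * (4 * z ^ 3 - 4 * z ^ 2 - 40 * z - 79) := by
    rw [div_pow, hY, gD]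
    field_simp
    ring
  have e' := congrArg norm e
  rw [norm_pow, norm_mul] at e'
  rcases le_or_gt ‖z‖ 1 with k | k
  · exact (not_sq _ (by rw [e', unit hr k, mul_one, hD])).elim
  have q := two_ge (p := p)
  have e4 : ‖(4 : ℚ_[p])‖ = ‖(2 : ℚ_[p])‖ ^ 2 := by rw [← norm_pow]; norm_num
  have k' : 1 < ‖(4 : ℚ_[p])‖ * ‖z‖ ^ 3 := by
    have a : (1 / 2 : ℝ) ^ 2 ≤ ‖(2 : ℚ_[p])‖ ^ 2 := pow_le_pow_left₀ (by norm_num) q 2
    have b : (2 : ℝ) ^ 3 ≤ ‖z‖ ^ 3 := pow_le_pow_left₀ (by norm_num) (big k) 3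
    rw [e4]
    exact lt_of_lt_of_le (by norm_num) (mul_le_mul a b (by norm_num) (by positivity))
  rw [psi k k'] at e'
  have n2 : ‖(2 : PadicAlgCl p)‖ = ‖(2 : ℚ_[p])‖ := by
    rw [← norm_algebraMap' (PadicAlgCl p) (2 : ℚ_[p]), map_ofNat]
  have nD : ‖(D : PadicAlgCl p)‖ = ‖(D : ℚ_[p])‖ := by
    rw [← norm_algebraMap' (PadicAlgCl p) (D : ℚ_[p]), map_intCast]
  have q0 : 0 < ‖(2 : ℚ_[p])‖ := lt_of_lt_of_le (by norm_num) q
  have h3 : ‖t‖ < ‖(2 : ℚ_[p])‖ * ‖z‖ := lt_of_pow_lt_pow_left₀ 3 (by positivity) (by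
    refine ((t_le ht).2.trans n2.le).trans_lt ?_
    rw [e4] at k'
    nlinarith [mul_lt_mul_of_pos_left k' q0])
  have h4 : ‖(D : PadicAlgCl p) * th t‖ < ‖algebraMap ℚ_[p] (PadicAlgCl p) (4 * D * z)‖ := by
    rw [norm_algebraMap', norm_mul, norm_mul, norm_mul, nD, e4]
    have : ‖th t‖ < ‖(2 : ℚ_[p])‖ * (‖(2 : ℚ_[p])‖ * ‖z‖) :=
      ((th_le ht).trans_eq (by rw [n2])).trans_lt (mul_lt_mul_of_pos_left h3 q0)
    exact (mul_lt_mul_of_pos_left this (norm_pos_iff.2 D0)).trans_eq (by ring)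
  refine ⟨fun _ => ?_, fun c => (h4.ne (by rw [c])).elim⟩
  have z0 : z ≠ 0 := norm_pos_iff.1 (one_pos.trans k)
  have h5 : ‖Y / (4 * D) / z‖ ^ 2 = ‖4 * D * z‖ := by
    rw [norm_div, div_pow, e', norm_mul, norm_mul]
    have := norm_ne_zero_iff.2 z0
    field_simp
  obtain ⟨a, ha⟩ := ex_rat (y := Y / (4 * (D : ℚ_[p])) / z) fun c =>
    (mul_ne_zero (mul_ne_zero (by norm_num : (4 : ℚ_[p]) ≠ 0) D0) z0)
      (norm_eq_zero.1 (by rw [← h5, c]; simp))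
  exact ⟨a, 0, 0, by rw [sub_eq h4, norm_algebraMap', ← h5, ha]; simp⟩

/-- row VALM -/
theorem valM (p : ℕ) [Fact p.Prime] (D : ℤ) (_h2 : p ≠ 2) (hn : NoRoot p) (h1 : (p : ℤ) ∣ D)
    (h3 : ¬ (p : ℤ) ^ 2 ∣ D) : ValAt p D :=
  valM_all p D hn h1 h3

end Vale.Agent.P014Y.G
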