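import Vale.Agent.P014Y.G.Inj
import Vale.Agent.P014Y.G.Val2
import Vale.Agent.P014Y.G.Val11
import Vale.Agent.P014Y.G.ValM
import Vale.Agent.P014Y.G.ValG
import Vale.Agent.P014Y.G.Even
import Vale.Agent.P014Y.G.Loc2
import Vale.Agent.P014Y.G.Sq11

/-!
# P014Y, Galois half: an element of the cubic field in all local images is a square
-/

open NumberField
open scoped IntermediateField

namespace Vale.Agent.P014Y.G

theorem Hyp.of_good {M : ℕ} (h : Good M) : Hyp M := ⟨h.1, h.2.1, h.2.2⟩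

theorem valAll {M : ℕ} (hM : Hyp M) (p : ℕ) [hp : Fact p.Prime] : ValAt p (-11 * M) := by
  have h4 := hM.mod4
  by_cases h2 : p = 2
  · subst h2
    exact val2 _ (by omega)
  by_cases h11 : p = 11
  · subst h11
    exact val11 M (sq11 M hM).1 (sq11 M hM).2
  have hp' : Prime (p : ℤ) := Nat.prime_iff_prime_int.1 hp.out
  have hn11 : ¬ (p : ℤ) ∣ -11 := by
    intro h
    have h' : p ∣ 11 := by exact_mod_cast (dvd_neg.1 h)
    exact h11 ((Nat.prime_dvd_prime_iff_eq hp.out (by norm_num)).1 h')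
  by_cases hd : p ∣ M
  · refine valM p _ h2 (hM.nr p hp.out hd) (Dvd.dvd.mul_left (by exact_mod_cast hd) _) fun h => ?_
    have h' : (p : ℤ) ^ 2 ∣ (M : ℤ) := hp'.pow_dvd_of_dvd_mul_left 2 hn11 h
    have h'' : p * p ∣ M := by exact_mod_cast (sq (p : ℤ) ▸ h')
    exact hp.out.not_isUnit (hM.sqf p h'')
  · refine valG p _ h2 h11 fun h => ?_
    rcases hp'.dvd_or_dvd h with h | h
    · exact hn11 h
    · exact hd (by exact_mod_cast h)

section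
variable {F : Type} [Field F] [NumberField F] {t : F}

theorem map_el {p : ℕ} [Fact p.Prime] (φ : F →+* PadicAlgCl p) (a b c : ℚ) :
    φ (a + b * t + c * t ^ 2) = (a : PadicAlgCl p) + b * φ t + c * φ t ^ 2 := by
  simp

theorem locIm_mul (hgen : ∀ γ : F, ∃ a b c : ℚ, γ = a + b * t + c * t ^ 2) {p : ℕ}
    [Fact p.Prime] (φ : F →+* PadicAlgCl p) {D : ℤ} {u γ : F} (hγ : γ ≠ 0)
    (h : LocIm p D (φ t) (φ (u * γ ^ 2))) : LocIm p D (φ t) (φ u) := by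
  obtain ⟨w, hw, hw0, h⟩ := h
  have e : φ (u * γ ^ 2) * w ^ 2 = φ u * (φ γ * w) ^ 2 := by
    rw [map_mul, map_pow]
    ring
  rw [e] at h
  refine ⟨φ γ * w, mul_mem ?_ hw, mul_ne_zero ((map_ne_zero φ).2 hγ) hw0, h⟩
  obtain ⟨a, b, c, rfl⟩ := hgen γ
  have h1 := IntermediateField.mem_adjoin_simple_self ℚ_[p] (φ t)
  rw [map_el]
  exact add_mem (add_mem (SubfieldClass.ratCast_mem _ a)
    (mul_mem (SubfieldClass.ratCast_mem _ b) h1))
    (mul_mem (SubfieldClass.ratCast_mem _ c) (pow_mem h1 2))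

theorem even_hyp {M : ℕ} (hM : Hyp M) (ht : IsR t) {α : F} (hα : α ≠ 0) {p : ℕ} [Fact p.Prime]
    (φ : F →+* PadicAlgCl p) (h : LocIm p (-11 * M) (φ t) (φ α)) :
    ∃ u v : F, u ≠ 0 ∧ ‖φ α‖ * ‖φ u‖ ^ 2 = ‖φ v‖ ^ 2 := by
  obtain ⟨w, hw, hw0, h⟩ := h
  have ht' := ht.map φ
  obtain ⟨a, b, c, habc⟩ := dens p _ ht' w hw
  rw [← map_el] at habc
  have hu : (a : F) + b * t + c * t ^ 2 ≠ 0 := by
    intro h0
    rw [h0, map_zero, norm_zero, norm_eq_zero] at habc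
    exact hw0 habc
  have key : ∀ z, EvN (φ t) z → φ α * w ^ 2 = z →
      ∃ u v : F, u ≠ 0 ∧ ‖φ α‖ * ‖φ u‖ ^ 2 = ‖φ v‖ ^ 2 := by
    rintro z ⟨a', b', c', hz⟩ e
    refine ⟨_, a' + b' * t + c' * t ^ 2, hu, ?_⟩
    rw [← habc, map_el, ← hz, ← e, norm_mul, norm_pow]
  rcases h with h | ⟨X, Y, hXY, h | ⟨h1, h⟩⟩
  · exact key 1 ⟨1, 0, 0, by simp⟩ h
  · refine key _ ((valAll hM p _ ht' X Y hXY).1 fun h0 => ?_) h
    rw [h0, sub_self] at h
    exact mul_ne_zero ((map_ne_zero φ).2 hα) (pow_ne_zero 2 hw0) h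
  · exact key _ ((valAll hM p _ ht' X Y hXY).2 h1) h

theorem glob {M : ℕ} (hM : Hyp M) (ht : IsR t) (h3 : Module.finrank ℚ F = 3)
    (hgen : ∀ γ : F, ∃ a b c : ℚ, γ = a + b * t + c * t ^ 2) {α : F} (hα : α ≠ 0)
    (hloc : ∀ (p : ℕ) [Fact p.Prime] (φ : F →+* PadicAlgCl p),
      LocIm p (-11 * M) (φ t) (φ α)) : ∃ γ : F, α = γ ^ 2 := by
  obtain ⟨d1, d2⟩ := disc F t ht h3
  obtain ⟨hpid, η, hη⟩ := fld F h3 d1 d2
  obtain ⟨e, γ, hγ, he⟩ := even F hpid α hα fun p _ φ => even_hyp hM ht hα φ (hloc p φ)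
  let φ : F →+* PadicAlgCl 2 := (IsAlgClosed.lift : F →ₐ[ℚ] PadicAlgCl 2).toRingHom
  have h4 := hM.mod4
  obtain ⟨l1, l2, l3⟩ := loc2 (-11 * M) (by omega) (φ t) (ht.map φ)
  have bad : ∀ u g : F, u = -1 ∨ u = 1 - t ∨ u = -(1 - t) → g ≠ 0 →
      ¬ LocIm 2 (-11 * M) (φ t) (φ (u * g ^ 2)) := by
    intro u g hu hg h
    have h' := locIm_mul hgen φ hg h
    rcases hu with rfl | rfl | rfl
    · exact l1 (by simpa using h')
    · exact l2 (by simpa using h')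
    · exact l3 (by simpa using h')
  have nsq : ∀ u g : F, u = 1 - t ∨ u = -(1 - t) → g ≠ 0 → u ≠ g ^ 2 := by
    intro u g hu hg h
    refine bad u g⁻¹ (Or.inr hu) (inv_ne_zero hg) ⟨1, one_mem _, one_ne_zero, Or.inl ?_⟩
    rw [h, ← mul_pow, mul_inv_cancel₀ hg]
    simp
  let ψ : (𝓞 F)ˣ →* F := (algebraMap (𝓞 F) F).toMonoidHom.comp (Units.coeHom _)
  have hψ : ∀ u : (𝓞 F)ˣ, ∃ n : ℤ, ψ u = ψ η ^ n ∨ ψ u = -ψ η ^ n := fun u => by
    obtain ⟨n, h | h⟩ := hη u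
    · exact ⟨n, Or.inl (by rw [h, map_zpow])⟩
    · refine ⟨n, Or.inr ?_⟩
      rw [h, ← map_zpow]
      simp [ψ]
  have h0 : ψ η ≠ 0 := ((Group.isUnit η).map ψ).ne_zero
  let tO : 𝓞 F := ⟨t, ht.integral (R := ℤ)⟩
  have hε : (1 - tO) * (tO ^ 2 - tO - 1) = 1 := by
    apply RingOfIntegers.ext
    have : t ^ 3 - 2 * t ^ 2 + 2 = 0 := ht
    simp only [map_mul, map_sub, map_pow, map_one]
    change (1 - t) * (t ^ 2 - t - 1) = 1
    linear_combination -this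
  obtain ⟨m, hm⟩ := hψ (Units.mkOfMulEqOne _ _ hε)
  have hm' : ψ (Units.mkOfMulEqOne _ _ hε) = 1 - t := by
    change algebraMap (𝓞 F) F (1 - tO) = 1 - t
    rw [map_sub, map_one]
    rfl
  rw [hm'] at hm
  obtain ⟨n, hn⟩ := hψ e
  have he' : α = ψ e * γ ^ 2 := he
  generalize ψ η = h at h0 hm hn
  generalize ψ e = E at hn he'
  have ev : ∀ k : ℤ, h ^ (2 * k) = (h ^ k) ^ 2 := fun k => by
    rw [mul_comm, zpow_mul, zpow_ofNat]
  have hk : ∀ k : ℤ, h ^ k ≠ 0 := fun k => zpow_ne_zero k h0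
  obtain ⟨k, rfl | rfl⟩ := Int.even_or_odd' m
  · rw [ev] at hm
    rcases hm with hm | hm
    · exact (nsq _ _ (Or.inl rfl) (hk k) hm).elim
    · exact (nsq _ _ (Or.inr rfl) (hk k) (by rw [hm, neg_neg])).elim
  rw [zpow_add_one₀ h0, ev] at hm
  have hα' := hloc 2 φ
  obtain ⟨j, rfl | rfl⟩ := Int.even_or_odd' n
  · rw [ev] at hn
    rcases hn with rfl | rfl
    · exact ⟨h ^ j * γ, by rw [he', mul_pow]⟩
    · refine (bad (-1) (h ^ j * γ) (Or.inl rfl) (mul_ne_zero (hk j) hγ) ?_).elim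
      rwa [show -1 * (h ^ j * γ) ^ 2 = α by rw [he']; ring]
  · rw [zpow_add_one₀ h0, ev] at hn
    have hg : h ^ j * γ / h ^ k ≠ 0 := div_ne_zero (mul_ne_zero (hk j) hγ) (hk k)
    have hkk := hk k
    have : α = (1 - t) * (h ^ j * γ / h ^ k) ^ 2 ∨ α = -(1 - t) * (h ^ j * γ / h ^ k) ^ 2 := by
      rcases hm with hm | hm <;> rcases hn with rfl | rfl <;> rw [he', hm]
      · left; field_simp
      · right; field_simp
      · right; field_simp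
      · left; field_simp
    rcases this with h1 | h1
    · exact (bad _ _ (Or.inr (Or.inl rfl)) hg (h1 ▸ hα')).elim
    · exact (bad _ _ (Or.inr (Or.inr rfl)) hg (h1 ▸ hα')).elim

end

end Vale.Agent.P014Y.G
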