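import Vale.Agent.P014Y.Sk

/-!
# P014Y: the square root of the descent map
-/

open WeierstrassCurve
open scoped Classical
open Vale.Agent.P014Z (tw11)

noncomputable section

namespace Vale.Agent.P014Y.G

namespace Hf

variable {D : ℤ} {K : Type} [Field K] [Algebra ℚ K]

theorem cz (K : Type) [Field K] [Algebra ℚ K] : CharZero K :=
  charZero_of_injective_algebraMap (algebraMap ℚ K).injective

theorem pd_ne {e : K} (hD : D ≠ 0) (he : ps (D : K) e = 0) : pd (D : K) e ≠ 0 := fun h => by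
  have := cz K
  unfold ps at he
  unfold pd at h
  have h1 : 248 * e * (D : K) ^ 2 + 751 * (D : K) ^ 3 = 0 := by
    linear_combination (12 * e - 4 * D) * h - 9 * he
  have h2 : 1449459 * (D : K) ^ 6 = 0 := by
    linear_combination 61504 * (D : K) ^ 4 * h +
      (-3 * (248 * e * (D : K) ^ 2 + 751 * (D : K) ^ 3) + 5002 * (D : K) ^ 3) * h1
  simp [hD] at h2

theorem a1 : ((tw11 D)⁄K).toAffine.a₁ = 0 := by simp [tw11]

theorem a2 : ((tw11 D)⁄K).toAffine.a₂ = -D := by simp [tw11]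

theorem a3 : ((tw11 D)⁄K).toAffine.a₃ = 1 := by simp [tw11]

theorem a4 : ((tw11 D)⁄K).toAffine.a₄ = -10 * (D : K) ^ 2 := by
  have := cz K
  simp [tw11]

theorem a6 : ((tw11 D)⁄K).toAffine.a₆ = (-79 * (D : K) ^ 3 - 1) / 4 := by
  have := cz K
  simp [tw11]

theorem negY (x y : K) : ((tw11 D)⁄K).toAffine.negY x y = -y - 1 := by
  rw [Affine.negY, a1, a3]
  ring

theorem eqn {x y : K} (h : ((tw11 D)⁄K).toAffine.Nonsingular x y) :
    (2 * y + 1) ^ 2 = ps (D : K) x := by
  have := cz K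
  have h1 := (Affine.equation_iff _ _).1 h.1
  rw [a1, a2, a3, a4, a6] at h1
  unfold ps
  linear_combination 4 * h1

theorem dbl0 {x y : K} (h : ((tw11 D)⁄K).toAffine.Nonsingular x y) (hy : 2 * y + 1 = 0) :
    (.some x y h + .some x y h : Pt D K) = 0 :=
  Affine.Point.add_self_of_Y_eq (by rw [negY]; linear_combination hy)

theorem dbl {x y : K} (h : ((tw11 D)⁄K).toAffine.Nonsingular x y) (hy : 2 * y + 1 ≠ 0) :
    ∃ x' y' h', (.some x y h + .some x y h : Pt D K) = .some x' y' h' ∧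
      x' = (pd (D : K) x / (2 * y + 1)) ^ 2 + D - 2 * x := by
  have h1 : y ≠ ((tw11 D)⁄K).toAffine.negY x y := fun e => hy (by
    rw [negY] at e
    linear_combination e)
  refine ⟨_, _, _, Affine.Point.add_self_of_Y_ne h1, ?_⟩
  rw [Affine.addX, Affine.slope_of_Y_ne rfl h1, negY, a1, a2, a4, pd,
    show y - (-y - 1) = 2 * y + 1 by ring]
  ring

theorem add_ne {x y x₁ y₁ : K} (h : ((tw11 D)⁄K).toAffine.Nonsingular x y)
    (h₁ : ((tw11 D)⁄K).toAffine.Nonsingular x₁ y₁) (hx : x ≠ x₁) :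
    ∃ x' y' h', (.some x y h + .some x₁ y₁ h₁ : Pt D K) = .some x' y' h' ∧
      x' = ((y - y₁) / (x - x₁)) ^ 2 + D - x - x₁ ∧
      y' = -((y - y₁) / (x - x₁) * (x' - x) + y) - 1 := by
  refine ⟨_, _, _, Affine.Point.add_of_X_ne hx, ?_, ?_⟩
  · rw [Affine.addX, Affine.slope_of_X_ne hx, a1, a2]
    ring
  · rw [Affine.addY, negY, Affine.negAddY, Affine.slope_of_X_ne hx]

theorem hf_some (e : K) {x y : K} (h : ((tw11 D)⁄K).toAffine.Nonsingular x y) :
    hf D e (.some x y h) = if 2 * y + 1 = 0 then (if x = e then 1 else -1) else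
      if (x - e) ^ 2 = pd (D : K) e then x - e else ((x - e) ^ 2 - pd (D : K) e) / (2 * y + 1) :=
  rfl

theorem mu_some (e : K) {x y : K} (h : ((tw11 D)⁄K).toAffine.Nonsingular x y) :
    mu D e (.some x y h) = if x = e then pd (D : K) e else x - e := rfl

theorem hf_zero (e : K) : hf D e 0 = 1 := rfl

theorem mu_zero (e : K) : mu D e 0 = 1 := rfl

/-- translation by a point of order two -/
theorem tr {x y x₁ y₁ x' y' : K} (h : (2 * y + 1) ^ 2 = ps (D : K) x) (h₁ : ps (D : K) x₁ = 0)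
    (hy : 2 * y₁ + 1 = 0) (hx : x ≠ x₁) (e1 : x' = ((y - y₁) / (x - x₁)) ^ 2 + D - x - x₁)
    (e2 : y' = -((y - y₁) / (x - x₁) * (x' - x) + y) - 1) :
    x' = x₁ + pd (D : K) x₁ / (x - x₁) ∧
      2 * y' + 1 = -(pd (D : K) x₁ / (x - x₁) ^ 2) * (2 * y + 1) := by
  have := cz K
  have hu := sub_ne_zero.2 hx
  have h2 : y - y₁ = (2 * y + 1) / 2 := by linear_combination (-1 / 2) * hy
  have h3 : x' = x₁ + pd (D : K) x₁ / (x - x₁) := by
    rw [e1, h2, div_pow, div_pow, h]
    unfold ps at h₁ ⊢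
    unfold pd
    field_simp
    linear_combination h₁
  refine ⟨h3, ?_⟩
  rw [e2, h3, h2]
  field_simp
  ring

end Hf

open Hf

theorem hH1 : H1 := by
  intro D K _ _ e hD he P
  have hq := pd_ne hD he
  rcases P with _ | ⟨x, y, h⟩
  · change hf D e 0 ≠ 0 ∧ hf D e 0 ^ 2 = mu D e (0 + 0)
    rw [add_zero, hf_zero, mu_zero]
    simp
  · by_cases hy : 2 * y + 1 = 0
    · rw [dbl0 h hy, mu_zero, hf_some, if_pos hy]
      split_ifs <;> simp
    · obtain ⟨x', y', h', e1, e2⟩ := dbl h hy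
      have h1 : x' - e = (((x - e) ^ 2 - pd (D : K) e) / (2 * y + 1)) ^ 2 := by
        have h2 := eqn h
        rw [e2, div_pow, div_pow, eq_div_iff (pow_ne_zero 2 hy), sub_mul, sub_mul, add_mul,
          div_mul_cancel₀ _ (pow_ne_zero 2 hy), h2]
        unfold ps at he ⊢
        unfold pd
        linear_combination (D - 2 * x - e) * he
      rw [e1, hf_some, if_neg hy, mu_some]
      by_cases h2 : (x - e) ^ 2 = pd (D : K) e
      · rw [h2, sub_self, zero_div, zero_pow two_ne_zero, sub_eq_zero] at h1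
        rw [if_pos h2, if_pos h1]
        exact ⟨fun h3 => hq (by rw [← h2, h3, zero_pow two_ne_zero]), h2⟩
      · have h3 := div_ne_zero (sub_ne_zero.2 h2) hy
        rw [if_neg h2, if_neg (sub_ne_zero.1 (h1 ▸ pow_ne_zero 2 h3))]
        exact ⟨h3, h1.symm⟩

theorem hH2 : H2 := by
  intro D K _ _ e hD he P T hT
  have := cz K
  rcases T with _ | ⟨x₁, y₁, h₁⟩
  · change hf D e (P + 0) = hf D e 0 * hf D e P
    rw [add_zero, hf_zero, one_mul]
  have hy₁ : 2 * y₁ + 1 = 0 := by
    by_contra h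
    obtain ⟨x', y', h', e1, -⟩ := dbl h₁ h
    exact Affine.Point.some_ne_zero h' (e1.symm.trans hT)
  have hp₁ : ps (D : K) x₁ = 0 := by rw [← eqn h₁, hy₁, zero_pow two_ne_zero]
  have hq₁ := pd_ne hD hp₁
  rcases P with _ | ⟨x, y, h⟩
  · change hf D e (0 + _) = _ * hf D e 0
    rw [zero_add, hf_zero, mul_one]
  by_cases hx : x = x₁
  · subst hx
    have h2 : 2 * y + 1 = 0 := pow_eq_zero_iff two_ne_zero |>.1 ((eqn h).trans hp₁)
    obtain rfl : y = y₁ := by linear_combination (1 / 2) * h2 - (1 / 2) * hy₁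
    rw [hT, hf_zero, hf_some, if_pos h2]
    split_ifs <;> simp
  obtain ⟨x', y', h', e0, e1, e2⟩ := add_ne h h₁ hx
  obtain ⟨e3, e4⟩ := tr (eqn h) hp₁ hy₁ hx e1 e2
  have hu := sub_ne_zero.2 hx
  have hc : pd (D : K) x₁ / (x - x₁) ^ 2 ≠ 0 := div_ne_zero hq₁ (pow_ne_zero 2 hu)
  rw [e0, hf_some, hf_some, hf_some, if_pos hy₁, e4]
  by_cases hy : 2 * y + 1 = 0
  · have hp : ps (D : K) x = 0 := by rw [← eqn h, hy, zero_pow two_ne_zero]
    have hq := pd_ne hD hp
    have h2 : y - y₁ = 0 := by linear_combination (1 / 2) * hy - (1 / 2) * hy₁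
    rw [h2, zero_div, zero_pow two_ne_zero, zero_add] at e1
    have h3 : x ^ 2 + x * x₁ + x₁ ^ 2 - D * (x + x₁) - 10 * (D : K) ^ 2 = 0 := by
      refine mul_left_cancel₀ hu ?_
      unfold ps at hp hp₁
      linear_combination (1 / 4) * hp - (1 / 4) * hp₁
    have h4 : x' ≠ x₁ := fun k => hq₁ (by
      rw [e1] at k
      unfold pd
      linear_combination h3 + (x - x₁) * k)
    have h5 : x' ≠ x := fun k => hq (by
      rw [e1] at k
      unfold pd
      linear_combination h3 + (x₁ - x) * k)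
    have h6 : (e - x₁) * (e - x) * (e - x') = 0 := by
      rw [e1]
      unfold ps at he hp₁
      linear_combination (1 / 4) * he - (1 / 4) * hp₁ - (e - x₁) * h3
    rw [hy, mul_zero, if_pos rfl, if_pos rfl]
    rcases mul_eq_zero.1 h6 with k | k
    · rcases mul_eq_zero.1 k with k | k
      · obtain rfl := sub_eq_zero.1 k
        rw [if_neg h4, if_pos rfl, if_neg hx, one_mul]
      · obtain rfl := sub_eq_zero.1 k
        rw [if_neg h5, if_pos rfl, if_neg (Ne.symm hx), mul_one]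
    · obtain rfl := sub_eq_zero.1 k
      rw [if_pos rfl, if_neg h4.symm, if_neg h5.symm]
      simp
  · rw [if_neg (mul_ne_zero (neg_ne_zero.2 hc) hy), if_neg hy]
    by_cases k : x₁ = e
    · subst k
      have h2 : (x' - x₁) ^ 2 - pd (D : K) x₁ =
          -(pd (D : K) x₁ / (x - x₁) ^ 2) * ((x - x₁) ^ 2 - pd (D : K) x₁) := by
        rw [e3]
        field_simp
        ring
      rw [if_pos rfl, one_mul]
      by_cases h3 : (x - x₁) ^ 2 = pd (D : K) x₁
      · rw [h3, sub_self, mul_zero, sub_eq_zero] at h2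
        rw [if_pos h2, if_pos h3, e3, ← h3]
        field_simp
        ring
      · rw [if_neg h3, if_neg (sub_ne_zero.1 (h2 ▸ mul_ne_zero (neg_ne_zero.2 hc)
          (sub_ne_zero.2 h3))), h2, mul_div_mul_left _ _ (neg_ne_zero.2 hc)]
    · have h3 : e ^ 2 + e * x₁ + x₁ ^ 2 - D * (e + x₁) - 10 * (D : K) ^ 2 = 0 := by
        refine mul_left_cancel₀ (sub_ne_zero.2 k) ?_
        unfold ps at he hp₁
        linear_combination (1 / 4) * hp₁ - (1 / 4) * he
      have h4 : pd (D : K) x₁ = (e - x₁) * (D - e - 2 * x₁) := by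
        unfold pd
        linear_combination h3
      have h5 : pd (D : K) e = (e - x₁) * (2 * e + x₁ - D) := by
        unfold pd
        linear_combination h3
      have h2 : (x' - e) ^ 2 - pd (D : K) e =
          pd (D : K) x₁ / (x - x₁) ^ 2 * ((x - e) ^ 2 - pd (D : K) e) := by
        rw [e3, h4, h5]
        field_simp
        ring
      rw [if_neg k, neg_one_mul]
      by_cases h6 : (x - e) ^ 2 = pd (D : K) e
      · rw [h6, sub_self, mul_zero, sub_eq_zero] at h2
        rw [if_pos h2, if_pos h6, e3, h4]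
        rw [h5] at h6
        field_simp
        linear_combination h6
      · rw [if_neg h6, if_neg (sub_ne_zero.1 (h2 ▸ mul_ne_zero hc (sub_ne_zero.2 h6))), h2,
          neg_mul, div_neg, mul_div_mul_left _ _ hc]

theorem hH3 : H3 := by
  intro D K K' _ _ _ _ φ e P
  have hi : Function.Injective φ := φ.toRingHom.injective
  rcases P with _ | ⟨x, y, h⟩
  · exact ⟨(map_one φ).symm, (map_one φ).symm⟩
  · have h1 : 2 * φ y + 1 = φ (2 * y + 1) := by simp [map_ofNat]
    have h2 : pd (D : K') (φ e) = φ (pd (D : K) e) := by simp [pd, map_ofNat]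
    rw [Affine.Point.map_some, hf_some, hf_some, mu_some, mu_some, h1, h2, ← map_sub, ← map_pow,
      ← map_sub, ← map_div₀]
    simp only [hi.eq_iff, map_eq_zero_iff φ hi, apply_ite φ, map_one, map_neg]
    exact ⟨trivial, trivial⟩

end Vale.Agent.P014Y.G
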