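import Vale.Agent.P014Y.G.Loc
import Vale.Agent.P014Y.G.Hf
import Vale.Agent.P014Y.G.Coh
import Vale.Agent.P014Y.G.Fld

/-!
# P014Y, Galois half: the two-torsion, the Kummer class, injectivity
-/

open WeierstrassCurve Polynomial
open scoped IntermediateField Classical
open Vale.Agent.P014 (GQ Pbar act LocallyTrivial)
open Vale.Agent.P014Z (tw11)

namespace Vale.Agent.P014Y.G

section
variable {D : ℤ} {K : Type} [Field K] [Algebra ℚ K]

theorem ns_root (hD : D ≠ 0) {e : K} (he : ps (D : K) e = 0) :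
    ((tw11 D)⁄K).toAffine.Nonsingular e (-1 / 2) := by
  have : CharZero K := algebraRat.charZero K
  have hp := Hf.pd_ne hD he
  rw [Affine.nonsingular_iff, Affine.equation_iff, Hf.a1, Hf.a2, Hf.a3, Hf.a4, Hf.a6]
  unfold ps at he
  unfold pd at hp
  refine ⟨by linear_combination (-1 / 4) * he, Or.inl fun h => hp ?_⟩
  linear_combination -h

/-- the point of order two with abscissa `e` -/
noncomputable def T2 (hD : D ≠ 0) {e : K} (he : ps (D : K) e = 0) : Pt D K :=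
  .some e (-1 / 2) (ns_root hD he)

theorem T2_eq (hD : D ≠ 0) {e x y : K} (he : ps (D : K) e = 0)
    (h : ((tw11 D)⁄K).toAffine.Nonsingular x y) (hx : x = e) (hy : 2 * y + 1 = 0) :
    (.some x y h : Pt D K) = T2 hD he := by
  have : CharZero K := algebraRat.charZero K
  have hy' : y = -1 / 2 := by linear_combination (1 / 2) * hy
  subst hx hy'
  rfl

theorem T2_inj (hD : D ≠ 0) {e e' : K} (he : ps (D : K) e = 0) (he' : ps (D : K) e' = 0)
    (h : T2 hD he = T2 hD he') : e = e' := (Affine.Point.some.inj h).1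

theorem T2_ne (hD : D ≠ 0) {e : K} (he : ps (D : K) e = 0) : T2 hD he ≠ 0 :=
  Affine.Point.some_ne_zero _

theorem T2_dbl (hD : D ≠ 0) {e : K} (he : ps (D : K) e = 0) : T2 hD he + T2 hD he = 0 := by
  have : CharZero K := algebraRat.charZero K
  exact Hf.dbl0 _ (by norm_num)

theorem T2_add (hD : D ≠ 0) {e e' e'' : K} (he : ps (D : K) e = 0) (he' : ps (D : K) e' = 0)
    (he'' : ps (D : K) e'' = 0) (hne : e ≠ e') (hs : e'' = D - e - e') :
    T2 hD he + T2 hD he' = T2 hD he'' := by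
  have : CharZero K := algebraRat.charZero K
  obtain ⟨x, y, h, e1, e2, e3⟩ := Hf.add_ne (ns_root hD he) (ns_root hD he') hne
  refine e1.trans (T2_eq hD he'' h ?_ ?_)
  · rw [e2, hs]
    simp
  · rw [e3]
    simp
    norm_num

theorem two_cases (hD : D ≠ 0) (P : Pt D K) (hP : P + P = 0) :
    P = 0 ∨ ∃ e, ∃ he : ps (D : K) e = 0, P = T2 hD he := by
  rcases P with _ | ⟨x, y, h⟩
  · exact Or.inl rfl
  · have hy : 2 * y + 1 = 0 := by
      by_contra hy
      obtain ⟨x', y', h', e1, -⟩ := Hf.dbl h hy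
      exact Affine.Point.some_ne_zero h' (e1.symm.trans hP)
    have hx : ps (D : K) x = 0 := by rw [← Hf.eqn h, hy]; ring
    exact Or.inr ⟨x, hx, T2_eq hD hx h rfl hy⟩

theorem hf_T2 (hD : D ≠ 0) (e₁ : K) {e : K} (he : ps (D : K) e = 0) :
    hf D e₁ (T2 hD he) = if e = e₁ then 1 else -1 := by
  have : CharZero K := algebraRat.charZero K
  unfold T2
  rw [Hf.hf_some, if_pos (by norm_num)]

theorem hf_two (hD : D ≠ 0) (e₁ : K) (P : Pt D K) (hP : P + P = 0) :
    hf D e₁ P = 1 ∨ hf D e₁ P = -1 := by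
  rcases two_cases hD P hP with rfl | ⟨e, he, rfl⟩
  · exact Or.inl rfl
  · rw [hf_T2]
    split_ifs <;> simp

theorem pm_T2 (hD : D ≠ 0) {L : Type} [Field L] [Algebra ℚ L] (φ : K →ₐ[ℚ] L) {e : K}
    (he : ps (D : K) e = 0) {e' : L} (he' : ps (D : L) e' = 0) (h : φ e = e') :
    pm D φ (T2 hD he) = T2 hD he' := by
  have : CharZero K := algebraRat.charZero K
  have : CharZero L := algebraRat.charZero L
  obtain ⟨h', e1⟩ := pm_some D φ (ns_root hD he)
  refine e1.trans (T2_eq hD he' h' h ?_)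
  simp [map_ofNat]
  norm_num

theorem exists_t (hD : D ≠ 0) {e : K} (he : ps (D : K) e = 0) :
    ∃ t : K, IsR t ∧ P014Y.th D t = e := by
  have : CharZero K := algebraRat.charZero K
  have hD' : (D : K) ≠ 0 := by exact_mod_cast hD
  obtain ⟨θ, rfl⟩ : ∃ θ, e = D * θ / 4 := ⟨4 * e / D, by field_simp⟩
  have hg : θ ^ 3 - 4 * θ ^ 2 - 160 * θ - 1264 = 0 := by
    unfold ps at he
    apply mul_left_cancel₀ (pow_ne_zero 3 hD')
    linear_combination 16 * he
  refine ⟨(384 + θ - 2 * θ ^ 2) / 242, ?_, ?_⟩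
  · unfold IsR
    linear_combination (-8 * θ ^ 3 - 20 * θ ^ 2 + 1306 * θ - 10759) / 242 ^ 3 * hg
  · unfold P014Y.th
    linear_combination (D : K) * (32 * θ + 96) / (4 * 242 ^ 2) * hg

theorem th_inj (hD : D ≠ 0) {t t' : K} (ht : IsR t) (ht' : IsR t')
    (h : P014Y.th D t = P014Y.th D t') : t = t' := by
  have : CharZero K := algebraRat.charZero K
  have hD' : (D : K) ≠ 0 := by exact_mod_cast hD
  have h1 : th t = th t' := by
    apply mul_left_cancel₀ hD'
    rw [← th_four, ← th_four, h]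
  have key : ∀ u : K, IsR u → 242 * u = 384 + th u - 2 * th u ^ 2 := fun u hu => by
    unfold IsR at hu
    unfold th
    linear_combination (128 * u - 192) * hu
  apply mul_left_cancel₀ (show (242 : K) ≠ 0 by norm_num)
  rw [key t ht, key t' ht', h1]

end

theorem minpoly_eq {K : Type} [Field K] [Algebra ℚ K] {t : K} (ht : IsR t) :
    minpoly ℚ t = X ^ 3 - 2 * X ^ 2 + 2 := by
  refine (minpoly.eq_of_irreducible_of_monic fld_irr ?_ (by monicity!)).symm
  simpa [IsR, map_ofNat] using ht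

theorem IsR.integral {K : Type} [Field K] {R : Type} [CommRing R] [Nontrivial R] [Algebra R K]
    {t : K} (ht : IsR t) : IsIntegral R t := by
  refine ⟨X ^ 3 - 2 * X ^ 2 + 2, by monicity!, ?_⟩
  simpa [IsR, Polynomial.eval₂_add, Polynomial.eval₂_sub, Polynomial.eval₂_mul] using ht

theorem conj_root {t t' : Qb} (ht : IsR t) (ht' : IsR t') : ∃ σ : GQ, σ t = t' := by
  have := galQ
  refine minpoly.exists_algEquiv_of_root' (ht.integral (R := ℚ)).isAlgebraic ?_
  rw [minpoly_eq ht]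
  simpa [IsR, map_ofNat] using ht'

/-- the action as an additive map on `Pt D Qb` -/
noncomputable def ac (D : ℤ) (σ : GQ) : Pt D Qb →+ Pt D Qb := pm D (σ : Qb →ₐ[ℚ] Qb)

theorem ac_mul (D : ℤ) (σ τ : GQ) (P : Pt D Qb) : ac D (σ * τ) P = ac D σ (ac D τ P) := by
  cases P <;> rfl

theorem ac_one (D : ℤ) (P : Pt D Qb) : ac D 1 P = P := by
  cases P <;> rfl

theorem inj {D : ℤ} (hD : D ≠ 0) {t : Qb} (ht : IsR t) (c : GQ → Pt D Qb)
    (hc : ∀ σ τ, c (σ * τ) = c σ + ac D σ (c τ)) (h2c : ∀ σ, c σ + c σ = 0)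
    (h : ∀ σ : GQ, σ t = t → hf D (P014Y.th D t) (c σ) = 1) :
    ∃ T : Pt D Qb, T + T = 0 ∧ ∀ σ, c σ = ac D σ T - T := by
  obtain ⟨e₁, he₁⟩ : ∃ e, e = P014Y.th D t := ⟨_, rfl⟩
  have p1 : ps (D : Qb) e₁ = 0 := he₁ ▸ ps_th D ht
  obtain ⟨e₂, hq⟩ : ∃ x : Qb, x ^ 2 + (e₁ - D) * x + (e₁ ^ 2 - D * e₁ - 10 * (D : Qb) ^ 2) = 0 := by
    obtain ⟨r, hr⟩ := IsAlgClosed.exists_pow_nat_eq
      ((e₁ - D) ^ 2 - 4 * (e₁ ^ 2 - D * e₁ - 10 * (D : Qb) ^ 2)) (show 0 < 2 by norm_num)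
    exact ⟨(r - (e₁ - D)) / 2, by linear_combination (1 / 4) * hr⟩
  have fac : ∀ x : Qb, ps (D : Qb) x = 4 * (x - e₁) * (x - e₂) * (x - (D - e₁ - e₂)) := by
    intro x
    unfold ps at p1 ⊢
    linear_combination p1 + 4 * (x - e₁) * hq
  have p2 : ps (D : Qb) e₂ = 0 := by rw [fac]; ring
  have p3 : ps (D : Qb) (D - e₁ - e₂) = 0 := by rw [fac]; ring
  have n12 : e₁ ≠ e₂ := fun hh => Hf.pd_ne hD p1 (by
    unfold pd
    rw [← hh] at hq
    linear_combination hq)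
  have hadd : T2 hD p1 + T2 hD p2 = T2 hD p3 := T2_add hD p1 p2 p3 n12 rfl
  have tr : ∀ e, ∀ he : ps (D : Qb) e = 0, ∃ σ : GQ, ac D σ (T2 hD p1) = T2 hD he := by
    intro e he
    obtain ⟨t', ht', e1⟩ := exists_t hD he
    obtain ⟨σ, hσ⟩ := conj_root ht ht'
    refine ⟨σ, pm_T2 hD _ p1 he ?_⟩
    rw [he₁, map_th, ← e1]
    exact congrArg _ hσ
  obtain ⟨T, hT, hT'⟩ := h1s GQ (Pt D Qb) (ac D) (ac_mul D) (ac_one D) (T2 hD p1) (T2 hD p2)
    (fun v => by
      rw [two_nsmul, hadd]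
      constructor
      · intro hv
        rcases two_cases hD v hv with rfl | ⟨e, he, rfl⟩
        · exact Or.inl rfl
        · have := (fac e).symm.trans he
          simp only [mul_eq_zero, sub_eq_zero] at this
          rcases this with ((h4 | rfl) | rfl) | rfl
          · norm_num at h4
          · exact Or.inr (Or.inl rfl)
          · exact Or.inr (Or.inr (Or.inl rfl))
          · exact Or.inr (Or.inr (Or.inr rfl))
      · rintro (rfl | rfl | rfl | rfl)
        · exact add_zero _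
        all_goals exact T2_dbl hD _)
    (T2_ne hD p1) (T2_ne hD p2) (fun hh => n12 (T2_inj hD p1 p2 hh)) (tr _ p2)
    (hadd ▸ tr _ p3) c hc (fun σ => by rw [two_nsmul, h2c]) (fun σ hσ _ => by
      have p1' : ps (D : Qb) (σ e₁) = 0 := by
        rw [he₁, ← AlgEquiv.coe_toAlgHom, map_th]
        exact ps_th D (ht.map (σ : Qb →ₐ[ℚ] Qb).toRingHom)
      have e1 : σ e₁ = e₁ :=
        T2_inj hD p1' p1 ((pm_T2 hD (σ : Qb →ₐ[ℚ] Qb) p1 p1' rfl).symm.trans hσ)
      have e2 : σ t = t := by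
        refine th_inj hD (ht.map (σ : Qb →ₐ[ℚ] Qb).toRingHom) ht ?_
        rw [← he₁, ← e1, he₁]
        exact (map_th (σ : Qb →ₐ[ℚ] Qb) D t).symm
      have e3 := h σ e2
      rcases two_cases hD _ (h2c σ) with h0 | ⟨e, he, h0⟩
      · exact Or.inl h0
      · rw [h0, hf_T2, ← he₁] at e3
        split_ifs at e3 with hh
        · subst hh
          exact Or.inr h0
        · norm_num at e3)
  exact ⟨T, by rw [← two_nsmul, hT], hT'⟩

theorem kummer {D : ℤ} (hD : D ≠ 0) {t : Qb} (ht : IsR t) (c : GQ → Pt D Qb)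
    (hl : IsLocallyConstant c) (hc : ∀ σ τ, c (σ * τ) = c σ + ac D σ (c τ))
    (h2c : ∀ σ, c σ + c σ = 0) :
    ∃ s : Qb, s ≠ 0 ∧ s ^ 2 ∈ ℚ⟮t⟯ ∧
      ∀ σ : GQ, σ t = t → σ s = hf D (P014Y.th D t) (c σ) * s := by
  have := galQ
  obtain ⟨e, he⟩ : ∃ e, e = P014Y.th D t := ⟨_, rfl⟩
  have pe : ps (D : Qb) e = 0 := he ▸ ps_th D ht
  rw [← he]
  have hH : ∀ Q T : Pt D Qb, T + T = 0 → hf D e (Q + T) = hf D e T * hf D e Q :=
    hH2 D _ e hD pe
  have hpm := fun σ => hf_two hD e (c σ) (h2c σ)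
  have hmul : ∀ σ τ : GQ, σ t = t → hf D e (c (σ * τ)) = hf D e (c σ) * hf D e (c τ) := by
    intro σ τ hσ
    have e1 : (σ : Qb →ₐ[ℚ] Qb) e = e := by
      rw [he, map_th]
      exact congrArg _ hσ
    have e2 := pm_hf hH3 D (σ : Qb →ₐ[ℚ] Qb) e (c τ)
    rw [e1] at e2
    rw [hc, add_comm, hH _ _ (h2c σ)]
    congr 1
    refine e2.trans ?_
    rcases hpm τ with h | h <;> simp [h]
  have c1 : c 1 = 0 := by
    have := hc 1 1
    rw [mul_one, ac_one, h2c] at this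
    exact this
  obtain ⟨β, hβ0, hβ, k1, k2⟩ := kum t {σ | σ t = t ∧ hf D e (c σ) = 1} (by
      refine IsClosed.inter ?_ ((hl.comp fun P => hf D e P).isClosed_fiber 1)
      exact (MulAction.stabilizer GQ t).isClosed_of_isOpen (stabilizer_isOpen_of_isIntegral t))
    (fun σ hσ => hσ.1) ⟨rfl, by rw [c1]; rfl⟩ (fun σ τ hσ hτ => by
      have hστ : (σ * τ) t = t := by rw [AlgEquiv.mul_apply, hτ, hσ]
      simp only [Set.mem_ofPred_eq, hσ, hτ, hστ, true_and, hmul σ τ hσ]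
      rcases hpm σ with h | h <;> rcases hpm τ with h' | h' <;> rw [h, h'] <;> norm_num)
  refine ⟨β, hβ0, hβ, fun σ hσ => ?_⟩
  rcases hpm σ with h | h
  · rw [k1 σ ⟨hσ, h⟩, h, one_mul]
  · rw [k2 σ hσ fun hh => by have := hh.2; rw [h] at this; norm_num at this, h, neg_one_mul]

end Vale.Agent.P014Y.G
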