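import Vale.Agent.P014Y.Sk
import Vale.Agent.P014Y.G.Defs

/-!
# P014Y, Galois half: the Kummer class of a Selmer cocycle lies in the local image
-/

open WeierstrassCurve
open scoped IntermediateField Classical
open Vale.Agent.P014 (GQ Pbar act LocallyTrivial)
open Vale.Agent.P014Z (tw11)

namespace Vale.Agent.P014Y.G

theorem algCl : IsAlgClosure ℚ Qb := AlgebraicClosure.instIsAlgClosure ℚ

theorem galQ : IsGalois ℚ Qb := by
  have := algCl
  infer_instance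

theorem exists_res {Ω : Type} [Field Ω] [Algebra ℚ Ω] (ι κ : Qb →ₐ[ℚ] Ω) :
    ∃ σ : GQ, ∀ x, ι (σ x) = κ x := by
  have := galQ
  let _ : Algebra Qb Ω := ι.toRingHom.toAlgebra
  have : IsScalarTower ℚ Qb Ω := IsScalarTower.of_algebraMap_eq fun x => (ι.commutes x).symm
  exact ⟨κ.restrictNormal' Qb, fun x => κ.restrictNormal_commutes Qb x⟩

theorem ps_th {K : Type} [Field K] [Algebra ℚ K] (D : ℤ) {t : K} (ht : IsR t) :
    ps (D : K) (P014Y.th D t) = 0 := by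
  have : CharZero K := algebraRat.charZero K
  unfold IsR at ht
  unfold ps P014Y.th
  field_simp
  linear_combination (D : K) ^ 3 * (256 * t ^ 3 - 832 * t ^ 2 + 560 * t - 316) * ht

theorem th_four {K : Type} [Field K] [Algebra ℚ K] (D : ℤ) (t : K) :
    4 * P014Y.th D t = D * th t := by
  have : CharZero K := algebraRat.charZero K
  unfold P014Y.th th
  field_simp
  ring

theorem map_th {K L : Type} [Field K] [Field L] [Algebra ℚ K] [Algebra ℚ L] (φ : K →ₐ[ℚ] L)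
    (D : ℤ) (t : K) : φ (P014Y.th D t) = P014Y.th D (φ t) := by
  simp [P014Y.th, map_ofNat]

theorem IsR.map {K L : Type} [Field K] [Field L] (φ : K →+* L) {t : K} (ht : IsR t) :
    IsR (φ t) := by
  have := congrArg φ ht
  simpa [IsR, map_ofNat] using this

theorem eqn {K : Type} [Field K] [Algebra ℚ K] {D : ℤ} {x y : K}
    (h : ((tw11 D)⁄K).toAffine.Equation x y) : (2 * y + 1) ^ 2 = ps (D : K) x := by
  have : CharZero K := algebraRat.charZero K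
  rw [Affine.equation_iff] at h
  simp [tw11, baseChange] at h
  unfold ps
  field_simp at h
  linear_combination h

theorem mem_adjoin_of_fixed {k K : Type} [Field k] [Field K] [Algebra k K] [IsGalois k K]
    (t w : K) (h : ∀ τ : K ≃ₐ[k] K, τ t = t → τ w = w) : w ∈ k⟮t⟯ := by
  rw [← InfiniteGalois.fixedField_fixingSubgroup k⟮t⟯]
  rintro ⟨τ, hτ⟩
  exact h τ ((IntermediateField.mem_fixingSubgroup_iff _ _).1 hτ t
    (IntermediateField.mem_adjoin_simple_self k t))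

/-- the map on points -/
noncomputable def pm (D : ℤ) {K L : Type} [Field K] [Field L] [Algebra ℚ K] [Algebra ℚ L]
    (φ : K →ₐ[ℚ] L) : Pt D K →+ Pt D L := Affine.Point.map (W' := tw11 D) φ

theorem pm_some (D : ℤ) {K L : Type} [Field K] [Field L] [Algebra ℚ K] [Algebra ℚ L]
    (φ : K →ₐ[ℚ] L) {x y : K} (h : ((tw11 D)⁄K).toAffine.Nonsingular x y) :
    ∃ h', pm D φ (.some x y h) = .some (φ x) (φ y) h' := ⟨_, rfl⟩

theorem pm_hf (h3 : H3) (D : ℤ) {K L : Type} [Field K] [Field L] [Algebra ℚ K] [Algebra ℚ L]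
    (φ : K →ₐ[ℚ] L) (e : K) (P : Pt D K) : hf D (φ e) (pm D φ P) = φ (hf D e P) :=
  (h3 D K L φ e P).1

theorem loc_core (h1 : H1) (h2 : H2) (h3 : H3) {B k Ω : Type} [Field B] [Algebra ℚ B] [Field k]
    [Field Ω] [Algebra ℚ Ω] [Algebra k Ω] [IsGalois k Ω] (r : (Ω ≃ₐ[k] Ω) → (Ω →ₐ[ℚ] Ω))
    (hr : ∀ τ x, r τ x = τ x) {D : ℤ} (hD : D ≠ 0) {t s : B} (ht : IsR t)
    {c : (B ≃ₐ[ℚ] B) → Pt D B} (h2c : ∀ σ, c σ + c σ = 0) (hs : s ≠ 0)
    (hσ : ∀ σ : B ≃ₐ[ℚ] B, σ t = t → σ s = hf D (P014Y.th D t) (c σ) * s)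
    (ι : B →ₐ[ℚ] Ω) (P : Pt D Ω)
    (hP : ∀ τ : Ω ≃ₐ[k] Ω, ∃ σ : B ≃ₐ[ℚ] B, (∀ x, ι (σ x) = τ (ι x)) ∧
      pm D ι (c σ) = pm D (r τ) P - P) :
    ∃ w ∈ k⟮ι t⟯, w ≠ 0 ∧ (ι (s ^ 2) * w ^ 2 = 1 ∨ ∃ X Y : k, Y ^ 2 = gD D X ∧
      (ι (s ^ 2) * w ^ 2 = algebraMap k Ω X - D * th (ι t) ∨
        (algebraMap k Ω X = D * th (ι t) ∧ ι (s ^ 2) * w ^ 2 = dl D (ι t)))) := by
  have : CharZero Ω := algebraRat.charZero Ω
  have ht' : IsR (ι t) := ht.map ι.toRingHom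
  obtain ⟨e, he⟩ : ∃ e, e = P014Y.th D (ι t) := ⟨_, rfl⟩
  have hpe : ps (D : Ω) e = 0 := he ▸ ps_th D ht'
  have hιs : ι s ≠ 0 := (map_ne_zero ι).2 hs
  have hz : hf D e P ≠ 0 ∧ hf D e P ^ 2 = mu D e (P + P) := h1 D _ e hD hpe P
  have hH2 : ∀ Q T : Pt D Ω, T + T = 0 → hf D e (Q + T) = hf D e T * hf D e Q :=
    h2 D _ e hD hpe
  obtain ⟨hz0, hz2⟩ := hz
  have hw : hf D e P / ι s ∈ k⟮ι t⟯ := by
    refine mem_adjoin_of_fixed _ _ fun τ hτ => ?_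
    obtain ⟨σ, hστ, e1⟩ := hP τ
    have hσt : σ t = t := ι.injective ((hστ t).trans hτ)
    have hc2 : pm D ι (c σ) + pm D ι (c σ) = 0 := by rw [← map_add, h2c, map_zero]
    have e2 := pm_hf h3 D (r τ) e P
    have e3 : r τ e = e := by rw [he, map_th, hr, hτ]
    rw [e3, ← sub_add_cancel (pm D (r τ) P) P, ← e1, add_comm, hH2 P _ hc2, hr] at e2
    have e4 := pm_hf h3 D ι (P014Y.th D t) (c σ)
    rw [map_th, ← he] at e4
    have e5 : τ (ι s) = ι (hf D (P014Y.th D t) (c σ)) * ι s := by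
      rw [← hστ, hσ σ hσt, map_mul]
    have e7 : ι (hf D (P014Y.th D t) (c σ)) ≠ 0 :=
      (map_ne_zero ι).2 (h1 D _ _ hD (ps_th D ht) (c σ)).1
    rw [map_div₀, e5, ← e2, e4, mul_div_mul_left _ _ e7]
  have hsq : ι (s ^ 2) * (hf D e P / ι s) ^ 2 = mu D e (P + P) := by
    rw [← hz2, map_pow]
    field_simp
  have hw0 : hf D e P / ι s ≠ 0 := div_ne_zero hz0 hιs
  have hfix : ∀ τ : Ω ≃ₐ[k] Ω, pm D (r τ) (P + P) = P + P := by
    intro τ
    obtain ⟨σ, -, e1⟩ := hP τ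
    have hc2 : pm D ι (c σ) + pm D ι (c σ) = 0 := by rw [← map_add, h2c, map_zero]
    rw [e1] at hc2
    rw [map_add, ← sub_eq_zero, ← hc2]
    abel
  generalize hf D e P / ι s = w at hw hsq hw0
  generalize P + P = R at hsq hfix
  have hn : ∀ n : ℕ, (n : Ω) * w ∈ k⟮ι t⟯ := fun n => mul_mem (natCast_mem _ n) hw
  rcases R with _ | ⟨x, y, hxy⟩
  · exact ⟨w, hw, hw0, Or.inl hsq⟩
  · have hx : ∀ τ : Ω ≃ₐ[k] Ω, τ x = x ∧ τ y = y := fun τ => by
      obtain ⟨h', e1⟩ := pm_some D (r τ) hxy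
      have := e1.symm.trans (hfix τ)
      simpa [hr] using this
    obtain ⟨x0, rfl⟩ := (InfiniteGalois.mem_range_algebraMap_iff_fixed x).2 fun τ => (hx τ).1
    obtain ⟨y0, rfl⟩ := (InfiniteGalois.mem_range_algebraMap_iff_fixed y).2 fun τ => (hx τ).2
    have hE := eqn hxy.1
    have hE0 : (8 * y0 + 4) ^ 2 = gD D (4 * x0) := by
      apply (algebraMap k Ω).injective
      unfold ps at hE
      simp only [gD, map_add, map_sub, map_mul, map_pow, map_ofNat, map_intCast]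
      linear_combination 16 * hE
    have h4 := th_four D (ι t)
    rw [← he] at h4
    unfold mu at hsq
    by_cases hxe : algebraMap k Ω x0 = e
    · refine ⟨(4 : ℕ) * w, hn 4, mul_ne_zero (by norm_num) hw0, Or.inr ⟨4 * x0, 8 * y0 + 4, hE0,
        Or.inr ⟨by rw [map_mul, map_ofNat, hxe, h4], ?_⟩⟩⟩
      simp only [hxe, if_true] at hsq
      unfold pd at hsq
      unfold dl
      push_cast
      linear_combination 16 * hsq + (3 * (4 * e + D * th (ι t)) - 8 * D) * h4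
    · refine ⟨(2 : ℕ) * w, hn 2, mul_ne_zero (by norm_num) hw0, Or.inr ⟨4 * x0, 8 * y0 + 4, hE0,
        Or.inl ?_⟩⟩
      simp only [hxe, if_false] at hsq
      simp only [map_mul, map_ofNat]
      push_cast
      linear_combination 4 * hsq - h4

theorem loct (h1 : H1) (h2 : H2) (h3 : H3) {D : ℤ} (hD : D ≠ 0) {t s : Qb} (ht : IsR t)
    {c : GQ → Pbar (tw11 D)} (h2c : ∀ σ, c σ + c σ = 0) (p : ℕ) [Fact p.Prime]
    (hl : LocallyTrivial (tw11 D) ℚ_[p] c) (hs : s ≠ 0)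
    (hσ : ∀ σ : GQ, σ t = t → σ s = hf D (P014Y.th D t) (c σ) * s)
    (ι : Qb →ₐ[ℚ] PadicAlgCl p) : LocIm p D (ι t) (ι (s ^ 2)) := by
  obtain ⟨P, hP⟩ := hl ι
  refine loc_core h1 h2 h3 (k := ℚ_[p])
    (fun τ => (τ : PadicAlgCl p →ₐ[ℚ_[p]] PadicAlgCl p).restrictScalars ℚ) (fun _ _ => rfl) hD ht
    (c := c) h2c hs hσ ι P fun τ => ?_
  obtain ⟨σ, hστ⟩ :=
    exists_res ι (((τ : PadicAlgCl p →ₐ[ℚ_[p]] PadicAlgCl p).restrictScalars ℚ).comp ι)
  refine ⟨σ, hστ, (hP τ σ hστ).trans ?_⟩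
  cases P <;> rfl

end Vale.Agent.P014Y.G
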