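import Vale.Agent.P014Y.G.Glob
import Vale.Agent.P014Y.G.Div

/-!
# P014Y, Galois half: the 2-Selmer group is trivial; `SELC`, `SHA`, `TWOD`
-/

open WeierstrassCurve NumberField
open scoped IntermediateField Classical
open Vale.Agent.P014
open Vale.Agent.P014Z (tw11)

namespace Vale.Agent.P014Y.G

theorem exists_root : ∃ t : Qb, IsR t := by
  obtain ⟨t, ht⟩ := IsAlgClosed.exists_aeval_eq_zero Qb
    (Polynomial.X ^ 3 - 2 * Polynomial.X ^ 2 + 2 : Polynomial ℚ) (by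
      rw [show (Polynomial.X ^ 3 - 2 * Polynomial.X ^ 2 + 2 : Polynomial ℚ).degree = 3 by
        compute_degree!]
      norm_num)
  exact ⟨t, by simpa [IsR, map_ofNat] using ht⟩

theorem exists_ext {F Ω : Type} [Field F] [NumberField F] [Field Ω] [CharZero Ω] [IsAlgClosed Ω]
    (j : F →+* Qb) (φ : F →+* Ω) : ∃ ι : Qb →ₐ[ℚ] Ω, ∀ x, ι (j x) = φ x := by
  have := algCl
  let _ : Algebra F Qb := j.toAlgebra
  let _ : Algebra F Ω := φ.toAlgebra
  have : IsScalarTower ℚ F Qb := IsScalarTower.of_algebraMap_eq fun x => by simp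
  have : Algebra.IsAlgebraic F Qb := Algebra.IsAlgebraic.tower_top (K := ℚ) F
  let ι : Qb →ₐ[F] Ω := IsAlgClosed.lift
  exact ⟨ι.toRingHom.toRatAlgHom, fun x => ι.commutes x⟩

theorem mem_of_loc {M : ℕ} (hM : Hyp M) {t s : Qb} (ht : IsR t) (hs : s ≠ 0)
    (hmem : s ^ 2 ∈ ℚ⟮t⟯) (hloc : ∀ (p : ℕ) [Fact p.Prime] (ι : Qb →ₐ[ℚ] PadicAlgCl p),
      LocIm p (-11 * M) (ι t) (ι (s ^ 2))) : ∀ σ : GQ, σ t = t → σ s = s := by
  have hi : IsIntegral ℚ t := ht.integral
  have : NumberField ℚ⟮t⟯ :=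
    { to_charZero := inferInstance
      to_finiteDimensional := IntermediateField.adjoin.finiteDimensional hi }
  have h3 : Module.finrank ℚ ℚ⟮t⟯ = 3 := by
    refine (IntermediateField.adjoin.finrank hi).trans ?_
    rw [minpoly_eq ht]
    compute_degree!
  let j : ℚ⟮t⟯ →+* Qb := algebraMap ℚ⟮t⟯ Qb
  let t₀ : ℚ⟮t⟯ := ⟨t, IntermediateField.mem_adjoin_simple_self ℚ t⟩
  have hj : j t₀ = t := rfl
  have ht₀ : IsR t₀ := by
    apply j.injective
    have : t ^ 3 - 2 * t ^ 2 + 2 = 0 := ht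
    simpa [map_ofNat, hj] using this
  have hgen : ∀ γ : ℚ⟮t⟯, ∃ a b c : ℚ, γ = a + b * t₀ + c * t₀ ^ 2 := fun γ => by
    obtain ⟨a, b, c, h⟩ := el_of_mem ht γ.2
    refine ⟨a, b, c, j.injective ?_⟩
    simp only [map_add, map_mul, map_pow, map_ratCast, hj]
    exact h.trans (by simp)
  obtain ⟨γ, hγ⟩ := glob hM ht₀ h3 hgen (α := ⟨s ^ 2, hmem⟩)
    (fun h => pow_ne_zero 2 hs (congrArg j h)) fun p _ φ => by
      obtain ⟨ι, hι⟩ := exists_ext j φ
      rw [← hι, ← hι]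
      exact hloc p ι
  intro σ hσ
  have e1 : s ^ 2 = j γ ^ 2 := by rw [← map_pow, ← hγ]; rfl
  have e2 : σ (j γ) = j γ := by
    obtain ⟨a, b, c, rfl⟩ := hgen γ
    simp only [map_add, map_mul, map_pow, map_ratCast, hj, hσ]
  rcases sq_eq_sq_iff_eq_or_eq_neg.1 e1 with h | h
  · rw [h, e2]
  · rw [h, map_neg, e2]

theorem selc : SELC := by
  intro M c hM hl hc h2c hloc
  have hH := Hyp.of_good hM
  have h4 := hH.mod4
  have hD : (-11 * M : ℤ) ≠ 0 := by omega
  obtain ⟨t, ht⟩ := exists_root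
  obtain ⟨s, hs, hmem, hσ⟩ := kummer hD ht c hl hc h2c
  have hfix := mem_of_loc hH ht hs hmem fun p _ ι =>
    loct hH1 hH2 hH3 hD ht h2c p (hloc p) hs hσ ι
  refine inj hD ht c hc h2c fun σ h => ?_
  have := hσ σ h
  rw [hfix σ h] at this
  exact (mul_eq_right₀ hs).1 this.symm

theorem lc_apply (x : Qb) : IsLocallyConstant fun σ : GQ => σ x := by
  have := galQ
  refine (IsLocallyConstant.iff_exists_open _).2 fun σ => ?_
  refine ⟨(fun τ => σ⁻¹ * τ) ⁻¹' (MulAction.stabilizer GQ x : Set GQ),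
    (stabilizer_isOpen_of_isIntegral x).preimage (continuous_const.mul continuous_id), by simp,
    fun τ hτ => ?_⟩
  have h : (σ⁻¹ * τ) x = x := hτ
  rw [← congrArg σ h, ← AlgEquiv.mul_apply, mul_inv_cancel_left]

theorem lc_act (E : WeierstrassCurve ℚ) (Q : Pbar E) : IsLocallyConstant fun σ : GQ => act E σ Q := by
  rcases Q with _ | ⟨x, y, h⟩
  · exact IsLocallyConstant.const 0
  · refine (IsLocallyConstant.iff_exists_open _).2 fun σ => ?_
    obtain ⟨U, hU, hσ, h1⟩ := (IsLocallyConstant.iff_exists_open _).1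
      ((lc_apply x).prodMk (lc_apply y)) σ
    refine ⟨U, hU, hσ, fun τ hτ => ?_⟩
    have h2 := Prod.ext_iff.1 (h1 τ hτ)
    exact (Affine.Point.some.injEq _ _ _ _ _ _).mpr h2

theorem act_mul (E : WeierstrassCurve ℚ) (σ τ : GQ) (P : Pbar E) :
    act E (σ * τ) P = act E σ (act E τ P) := by
  cases P <;> rfl

theorem lt_cob (E : WeierstrassCurve ℚ) (K : Type) [Field K] [Algebra ℚ K] (Q : Pbar E) :
    LocallyTrivial E K fun σ => act E σ Q - Q := by
  intro ι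
  refine ⟨Affine.Point.map (W' := E) ι Q, fun τ σ h => ?_⟩
  rw [map_sub]
  congr 1
  rcases Q with _ | ⟨x, y, hxy⟩
  · rfl
  · exact (Affine.Point.some.injEq _ _ _ _ _ _).mpr ⟨h x, h y⟩

theorem cob_mem (E : WeierstrassCurve ℚ) (Q : Pbar E) :
    (fun σ => act E σ Q - Q) ∈ shaCocycles E :=
  ⟨(lc_act E Q).comp fun P => P - Q, fun σ τ => by simp only [act_mul, map_sub]; abel, lt_cob E ℝ Q,
    fun p _ => lt_cob E ℚ_[p] Q⟩

theorem sha_two {M : ℕ} (hM : Good M) (x : Sha (tw11 (-11 * M))) (hx : 2 • x = 0) : x = 0 := by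
  have h4 := hM.2.1
  have hD : (-11 * M : ℤ) ≠ 0 := by omega
  obtain ⟨c, rfl⟩ := QuotientAddGroup.mk_surjective x
  rw [← QuotientAddGroup.mk_nsmul, QuotientAddGroup.eq_zero_iff, AddSubgroup.mem_addSubgroupOf]
    at hx
  obtain ⟨P, hP⟩ := hx
  obtain ⟨Q, hQ⟩ : ∃ Q : Pbar (tw11 (-11 * M)), Q + Q = P := hdiv _ Qb hD P
  obtain ⟨m1, m2, -, m4⟩ := (shaCocycles _).sub_mem c.2 (cob_mem _ Q)
  obtain ⟨T, -, hT⟩ := selc M _ hM m1 m2 (fun σ => by
    have := hP σ
    rw [AddSubgroup.coe_nsmul, Pi.smul_apply, two_nsmul, ← hQ, map_add] at this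
    rw [Pi.sub_apply, sub_add_sub_comm, this]
    abel) m4
  rw [QuotientAddGroup.eq_zero_iff, AddSubgroup.mem_addSubgroupOf]
  refine ⟨T + Q, fun σ => ?_⟩
  have := hT σ
  rw [Pi.sub_apply, sub_eq_iff_eq_add] at this
  rw [this, map_add]
  abel

theorem card_primary (A : Type) [AddCommMonoid A] (h : ∀ x : A, 2 • x = 0 → x = 0) :
    Nat.card (AddCommMonoid.primaryComponent A 2) = 1 := by
  have key : ∀ (n : ℕ) (x : A), 2 ^ n • x = 0 → x = 0 := by
    intro n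
    induction n with
    | zero => intro x hx; rwa [pow_zero, one_nsmul] at hx
    | succ n ih =>
      intro x hx
      rw [pow_succ, mul_nsmul'] at hx
      exact h x (ih _ hx)
  rw [Nat.card_eq_one_iff_exists]
  refine ⟨0, ?_⟩
  rintro ⟨x, n, hn⟩
  apply Subtype.ext
  exact key n x hn

theorem sha : SHA := fun _ hM => card_primary _ (sha_two hM)

theorem sha_subsingleton {M : ℕ} (hM : Good M) :
    Subsingleton (shaPrimary (tw11 (-11 * M)) 2) := (Nat.card_eq_one_iff_unique.1 (sha M hM)).1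

theorem twod : TWOD := by
  intro M hM R
  have h4 := hM.2.1
  have hD : (-11 * M : ℤ) ≠ 0 := by omega
  have := galQ
  let j : (tw11 (-11 * M)).toAffine.Point →+ Pbar (tw11 (-11 * M)) :=
    Affine.Point.map (W' := tw11 (-11 * M)) (Algebra.ofId ℚ Qb)
  have jinj : Function.Injective j :=
    Affine.Point.map_injective (W' := tw11 (-11 * M)) (Algebra.ofId ℚ Qb)
  have jfix : ∀ σ P, act _ σ (j P) = j P := by
    intro σ P
    rcases P with _ | ⟨x, y, h⟩
    · rfl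
    · exact (Affine.Point.some.injEq _ _ _ _ _ _).mpr ⟨σ.commutes x, σ.commutes y⟩
  have jsurj : ∀ P, (∀ σ, act _ σ P = P) → ∃ P₀, j P₀ = P := by
    intro P hP
    rcases P with _ | ⟨x, y, h⟩
    · exact ⟨0, rfl⟩
    · have hx : ∀ σ : GQ, σ x = x ∧ σ y = y := fun σ =>
        (Affine.Point.some.injEq _ _ _ _ _ _).mp (hP σ)
      obtain ⟨x0, rfl⟩ := (InfiniteGalois.mem_range_algebraMap_iff_fixed x).2 fun τ => (hx τ).1
      obtain ⟨y0, rfl⟩ := (InfiniteGalois.mem_range_algebraMap_iff_fixed y).2 fun τ => (hx τ).2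
      exact ⟨.some x0 y0 ((Affine.baseChange_nonsingular (W := (tw11 (-11 * M)).toAffine)
        (f := Algebra.ofId ℚ Qb) (Algebra.ofId ℚ Qb).injective x0 y0).1 h), rfl⟩
  obtain ⟨Q, hQ⟩ : ∃ Q : Pbar (tw11 (-11 * M)), Q + Q = j R := hdiv _ Qb hD (j R)
  obtain ⟨m1, m2, -, m4⟩ := cob_mem _ Q
  obtain ⟨T, hT2, hT⟩ := selc M _ hM m1 m2 (fun σ => by
    rw [sub_add_sub_comm, ← map_add, hQ, jfix, sub_self]) m4
  obtain ⟨P, hP⟩ := jsurj (Q - T) fun σ => by
    rw [map_sub, sub_eq_sub_iff_sub_eq_sub]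
    exact hT σ
  refine ⟨P, jinj ?_⟩
  rw [map_add, hP, sub_add_sub_comm, hQ, hT2, sub_zero]

theorem no_root {M : ℕ} (hM : Good M) (x : ℚ) : ps ((-11 * M : ℤ) : ℚ) x ≠ 0 := by
  intro h
  have h4 := hM.2.1
  have hD : (-11 * M : ℤ) ≠ 0 := by omega
  obtain ⟨t, ht, -⟩ := exists_t hD h
  have h1 := minpoly_eq ht
  have h2 := minpoly.eq_X_sub_C ℚ t
  have h3 : (Polynomial.X ^ 3 - 2 * Polynomial.X ^ 2 + 2 : Polynomial ℚ).natDegree = 3 := by
    compute_degree!
  rw [← h1] at h3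
  have h5 : (minpoly ℚ t).natDegree = 1 := by
    rw [show minpoly ℚ t = Polynomial.X - Polynomial.C t from h2, Polynomial.natDegree_X_sub_C]
  omega

theorem no_two {M : ℕ} (hM : Good M) (P : (tw11 (-11 * M)).toAffine.Point) (hP : P + P = 0) :
    P = 0 := by
  rcases P with _ | ⟨x, y, h⟩
  · rfl
  · exfalso
    by_cases hy : y = (tw11 (-11 * M)).toAffine.negY x y
    · refine no_root hM x ?_
      have e := (Affine.equation_iff x y).1 h.1
      simp only [Affine.negY, tw11] at hy e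
      unfold ps
      linear_combination (-4) * e + 2 * (2 * y + 1) * hy - (2 * y + 1) * hy
    · rw [Affine.Point.add_self_of_Y_ne hy] at hP
      exact Affine.Point.some_ne_zero _ hP

end Vale.Agent.P014Y.G
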